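import Mathlib

/-!
# Extension operators: kernel, Fubini identities
-/

namespace Vale.Agent.P122.EPS

open MeasureTheory
open scoped ENNReal NNReal ComplexConjugate

/-- Three dimensional Euclidean space. -/
abbrev V := EuclideanSpace ℝ (Fin 3)

/-- The character `e(⟨x, ξ⟩)`. -/
noncomputable def ch (x ξ : V) : ℂ :=
  Complex.exp (((2 * Real.pi * inner ℝ x ξ : ℝ) : ℂ) * Complex.I)

@[simp] lemma norm_ch (x ξ : V) : ‖ch x ξ‖ = 1 := Complex.norm_exp_ofReal_mul_I _

@[simp] lemma enorm_ch (x ξ : V) : ‖ch x ξ‖ₑ = 1 := by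
  rw [← ofReal_norm, norm_ch, ENNReal.ofReal_one]

lemma continuous_ch : Continuous fun p : V × V => ch p.1 p.2 := by
  unfold ch; fun_prop

lemma continuous_ch_left (ξ : V) : Continuous fun x : V => ch x ξ := by
  unfold ch; fun_prop

lemma continuous_ch_right (x : V) : Continuous fun ξ : V => ch x ξ := by
  unfold ch; fun_prop

lemma ch_comm (x ξ : V) : ch x ξ = ch ξ x := by
  unfold ch; rw [real_inner_comm]

lemma ch_add_left (x y ξ : V) : ch (x + y) ξ = ch x ξ * ch y ξ := by
  unfold ch
  rw [← Complex.exp_add, inner_add_left]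
  congr 1
  push_cast
  ring

lemma ch_add_right (x ξ η : V) : ch x (ξ + η) = ch x ξ * ch x η := by
  rw [ch_comm, ch_add_left, ch_comm ξ, ch_comm η]

lemma conj_ch (x ξ : V) : conj (ch x ξ) = ch (-x) ξ := by
  unfold ch
  rw [← Complex.exp_conj, map_mul, Complex.conj_ofReal, Complex.conj_I, inner_neg_left]
  congr 1
  push_cast
  ring

lemma ch_neg_left (x ξ : V) : ch (-x) ξ = ch x (-ξ) := by
  unfold ch
  rw [inner_neg_left, inner_neg_right]

/-- The extension operator of a measure. -/
noncomputable def Ext (μ : Measure V) (g : V → ℂ) (x : V) : ℂ := ∫ ξ, g ξ * ch x ξ ∂μ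

/-- The Fourier transform. -/
noncomputable def Fh (h : V → ℂ) (ξ : V) : ℂ := ∫ x, h x * ch (-x) ξ

lemma norm_Ext_le (μ : Measure V) (g : V → ℂ) (x : V) : ‖Ext μ g x‖ ≤ ∫ ξ, ‖g ξ‖ ∂μ := by
  refine (norm_integral_le_integral_norm _).trans (le_of_eq ?_)
  simp

lemma norm_Fh_le (h : V → ℂ) (ξ : V) : ‖Fh h ξ‖ ≤ ∫ x, ‖h x‖ := by
  refine (norm_integral_le_integral_norm _).trans (le_of_eq ?_)
  simp

lemma continuous_Ext {μ : Measure V} {g : V → ℂ} (hg : Integrable g μ) :
    Continuous (Ext μ g) := by
  unfold Ext
  refine continuous_of_dominated (bound := fun ξ => ‖g ξ‖) ?_ ?_ hg.norm ?_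
  · intro x
    exact hg.aestronglyMeasurable.mul (continuous_ch_right x).aestronglyMeasurable
  · intro x
    refine Filter.Eventually.of_forall fun ξ => ?_
    simp
  · refine Filter.Eventually.of_forall fun ξ => ?_
    exact continuous_const.mul (continuous_ch_left ξ)

lemma continuous_Fh {h : V → ℂ} (hh : Integrable h) : Continuous (Fh h) := by
  unfold Fh
  refine continuous_of_dominated (bound := fun ξ => ‖h ξ‖) ?_ ?_ hh.norm ?_
  · intro x
    exact hh.aestronglyMeasurable.mul
      ((continuous_ch_left x).comp continuous_neg).aestronglyMeasurable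
  · intro x
    refine Filter.Eventually.of_forall fun ξ => ?_
    simp
  · refine Filter.Eventually.of_forall fun x => ?_
    exact continuous_const.mul (continuous_ch_right (-x))

/-- Adding a bounded continuous factor to a product of two integrable functions. -/
lemma integrable_prod_mul {μ ν : Measure V} [SFinite μ] [SFinite ν] {a b : V → ℂ}
    (ha : Integrable a μ) (hb : Integrable b ν) {k : V × V → ℂ} (hk : Continuous k)
    {C : ℝ} (hC : ∀ z, ‖k z‖ ≤ C) :
    Integrable (fun z : V × V => a z.1 * b z.2 * k z) (μ.prod ν) := by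
  have h := ha.mul_prod hb
  exact h.mul_bdd hk.aestronglyMeasurable (Filter.Eventually.of_forall hC)

lemma pairing {μ : Measure V} [SFinite μ] {g h : V → ℂ} (hg : Integrable g μ)
    (hh : Integrable h) :
    ∫ x, Ext μ g x * conj (h x) = ∫ ξ, g ξ * conj (Fh h ξ) ∂μ := by
  have hconj : Integrable (fun x => conj (h x)) := by
    have := hh.norm
    refine ⟨?_, ?_⟩
    · exact Complex.continuous_conj.comp_aestronglyMeasurable hh.aestronglyMeasurable
    · have h2 := hh.2
      refine h2.congr' ?_
      exact Filter.Eventually.of_forall fun x => by simp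
  have hI : Integrable (Function.uncurry fun x ξ : V => conj (h x) * g ξ * ch x ξ)
      (volume.prod μ) := by
    refine (integrable_prod_mul hconj hg (k := fun z => ch z.1 z.2) continuous_ch (C := 1)
      (fun z => by simp))
  calc ∫ x, Ext μ g x * conj (h x)
      = ∫ x, ∫ ξ, conj (h x) * g ξ * ch x ξ ∂μ := by
        congr 1
        funext x
        unfold Ext
        rw [← integral_mul_const]
        congr 1
        funext ξ
        ring
    _ = ∫ ξ, ∫ x, conj (h x) * g ξ * ch x ξ ∂volume ∂μ := integral_integral_swap hI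
    _ = ∫ ξ, g ξ * conj (Fh h ξ) ∂μ := by
        congr 1
        funext ξ
        unfold Fh
        rw [← integral_conj, ← integral_const_mul]
        congr 1
        funext x
        rw [map_mul, conj_ch, neg_neg]
        ring

lemma Ext_Fh {μ : Measure V} [IsFiniteMeasure μ] {h : V → ℂ} (hh : Integrable h) (x : V) :
    Ext μ (Fh h) x = ∫ y, h y * Ext μ (fun _ => 1) (x - y) := by
  have h1 : Integrable (fun _ : V => (1 : ℂ)) μ := integrable_const 1
  have hI : Integrable (Function.uncurry fun y ξ : V => h y * (1:ℂ) * (ch (-y) ξ * ch x ξ))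
      (volume.prod μ) := by
    refine (integrable_prod_mul hh h1 (k := fun z => ch (-z.1) z.2 * ch x z.2) ?_ (C := 1)
      (fun z => by simp))
    refine Continuous.mul ?_ ?_
    · exact continuous_ch.comp (by fun_prop : Continuous fun z : V × V => (-z.1, z.2))
    · exact continuous_ch.comp (by fun_prop : Continuous fun z : V × V => (x, z.2))
  calc Ext μ (Fh h) x = ∫ ξ, ∫ y, h y * (1:ℂ) * (ch (-y) ξ * ch x ξ) ∂volume ∂μ := by
        unfold Ext Fh
        congr 1
        funext ξ
        rw [← integral_mul_const]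
        congr 1
        funext y
        ring
    _ = ∫ y, ∫ ξ, h y * (1:ℂ) * (ch (-y) ξ * ch x ξ) ∂μ := (integral_integral_swap hI).symm
    _ = ∫ y, h y * Ext μ (fun _ => 1) (x - y) := by
        congr 1
        funext y
        unfold Ext
        rw [← integral_const_mul]
        congr 1
        funext ξ
        rw [sub_eq_add_neg, ch_add_left]
        ring

lemma Fh_Ext_mul {μ : Measure V} [SFinite μ] {g γ : V → ℂ} (hg : Integrable g μ)
    (hγ : Integrable γ) (ξ : V) :
    Fh (fun x => Ext μ g x * γ x) ξ = ∫ η, g η * Fh γ (ξ - η) ∂μ := by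
  have hI : Integrable (Function.uncurry fun x η : V => γ x * g η * (ch x η * ch (-x) ξ))
      (volume.prod μ) := by
    refine (integrable_prod_mul hγ hg (k := fun z => ch z.1 z.2 * ch (-z.1) ξ) ?_ (C := 1)
      (fun z => by simp))
    refine Continuous.mul continuous_ch ?_
    exact continuous_ch.comp (by fun_prop : Continuous fun z : V × V => (-z.1, ξ))
  calc Fh (fun x => Ext μ g x * γ x) ξ
      = ∫ x, ∫ η, γ x * g η * (ch x η * ch (-x) ξ) ∂μ := by
        unfold Fh Ext
        congr 1
        funext x
        rw [mul_assoc, ← integral_mul_const]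
        congr 1
        funext η
        ring
    _ = ∫ η, ∫ x, γ x * g η * (ch x η * ch (-x) ξ) ∂volume ∂μ := integral_integral_swap hI
    _ = ∫ η, g η * Fh γ (ξ - η) ∂μ := by
        congr 1
        funext η
        unfold Fh
        rw [← integral_const_mul]
        congr 1
        funext x
        rw [show ξ - η = ξ + (-η) by abel, ch_add_right, ch_neg_left x (-η), neg_neg]
        ring

end Vale.Agent.P122.EPS
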