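import Vale.Agent.P122.EPS895.Sparse

/-!
# Number of separated points with a large value of the extension
-/

namespace Vale.Agent.P122.EPS

open MeasureTheory
open scoped ENNReal NNReal ComplexConjugate

lemma lint_sum_ch {μ : Measure V} [IsFiniteMeasure μ] (S : Finset V) {w : V → ℂ}
    (hw : ∀ x, ‖w x‖ ≤ 1) :
    ∫⁻ ξ, ‖∑ x ∈ S, w x * ch x ξ‖ₑ ^ 2 ∂μ
      ≤ ENNReal.ofReal (∑ x ∈ S, ∑ y ∈ S, ‖Ext μ (fun _ => 1) (x - y)‖) := by
  have hc : Continuous fun ξ : V => ∑ x ∈ S, w x * ch x ξ :=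
    continuous_finsetSum _ fun x _ => continuous_const.mul (continuous_ch_right x)
  have hb : ∀ ξ, ‖∑ x ∈ S, w x * ch x ξ‖ ≤ S.card := by
    intro ξ
    calc ‖∑ x ∈ S, w x * ch x ξ‖ ≤ ∑ x ∈ S, ‖w x * ch x ξ‖ := norm_sum_le _ _
      _ ≤ ∑ _x ∈ S, (1 : ℝ) := by
          refine Finset.sum_le_sum fun x _ => ?_
          rw [norm_mul, norm_ch, mul_one]
          exact hw x
      _ = S.card := by simp
  have hi : Integrable (fun ξ => ‖∑ x ∈ S, w x * ch x ξ‖ ^ 2) μ := by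
    refine Integrable.of_bound (hc.norm.pow 2).aestronglyMeasurable ((S.card : ℝ) ^ 2)
      (Filter.Eventually.of_forall fun ξ => ?_)
    rw [Real.norm_of_nonneg (by positivity)]
    gcongr
    exact hb ξ
  have h1 : ∫⁻ ξ, ‖∑ x ∈ S, w x * ch x ξ‖ₑ ^ 2 ∂μ
      = ENNReal.ofReal (∫ ξ, ‖∑ x ∈ S, w x * ch x ξ‖ ^ 2 ∂μ) := by
    rw [ofReal_integral_eq_lintegral_ofReal hi (Filter.Eventually.of_forall fun _ => by positivity)]
    refine lintegral_congr fun ξ => ?_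
    rw [← ofReal_norm, ENNReal.ofReal_pow (norm_nonneg _)]
  rw [h1]
  apply ENNReal.ofReal_le_ofReal
  have hi2 : ∀ x y : V, Integrable (fun ξ : V => w x * conj (w y) * ((1 : ℂ) * ch (x - y) ξ)) μ := by
    intro x y
    refine Integrable.of_bound (continuous_const.mul
      (continuous_const.mul (continuous_ch_right _))).aestronglyMeasurable
      (‖w x * conj (w y)‖) (Filter.Eventually.of_forall fun ξ => ?_)
    simp
  have h2 : ((∫ ξ, ‖∑ x ∈ S, w x * ch x ξ‖ ^ 2 ∂μ : ℝ) : ℂ)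
      = ∑ x ∈ S, ∑ y ∈ S, w x * conj (w y) * Ext μ (fun _ => 1) (x - y) := by
    rw [← integral_complex_ofReal]
    have h3 : ∀ ξ, ((‖∑ x ∈ S, w x * ch x ξ‖ ^ 2 : ℝ) : ℂ)
        = ∑ x ∈ S, ∑ y ∈ S, w x * conj (w y) * ((1 : ℂ) * ch (x - y) ξ) := by
      intro ξ
      rw [Complex.ofReal_pow, ← Complex.mul_conj', map_sum, Finset.sum_mul_sum]
      refine Finset.sum_congr rfl fun x _ => Finset.sum_congr rfl fun y _ => ?_
      rw [map_mul, conj_ch, sub_eq_add_neg, ch_add_left]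
      ring
    simp_rw [h3]
    rw [integral_finsetSum _ fun x _ => integrable_finsetSum _ fun y _ => hi2 x y]
    refine Finset.sum_congr rfl fun x _ => ?_
    rw [integral_finsetSum _ fun y _ => hi2 x y]
    refine Finset.sum_congr rfl fun y _ => ?_
    rw [integral_const_mul]
    rfl
  calc ∫ ξ, ‖∑ x ∈ S, w x * ch x ξ‖ ^ 2 ∂μ
      ≤ ‖((∫ ξ, ‖∑ x ∈ S, w x * ch x ξ‖ ^ 2 ∂μ : ℝ) : ℂ)‖ := by
        rw [Complex.norm_real]; exact le_abs_self _
    _ ≤ ∑ x ∈ S, ∑ y ∈ S, ‖Ext μ (fun _ => 1) (x - y)‖ := by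
        rw [h2]
        refine (norm_sum_le _ _).trans (Finset.sum_le_sum fun x _ => ?_)
        refine (norm_sum_le _ _).trans (Finset.sum_le_sum fun y _ => ?_)
        rw [norm_mul, norm_mul, RCLike.norm_conj]
        have h4 : ‖w x‖ * ‖w y‖ ≤ 1 := mul_le_one₀ (hw x) (norm_nonneg _) (hw y)
        calc ‖w x‖ * ‖w y‖ * ‖Ext μ (fun _ => 1) (x - y)‖
            ≤ 1 * ‖Ext μ (fun _ => 1) (x - y)‖ := by gcongr
          _ = _ := one_mul _

lemma card_sq_le {μ : Measure V} [IsFiniteMeasure μ] {g : V → ℂ} (hgm : Measurable g)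
    (hg1 : ∀ ξ, ‖g ξ‖ ≤ 1) (S : Finset V) {lam : ℝ} (hlam : 0 ≤ lam)
    (hS : ∀ x ∈ S, lam ≤ ‖Ext μ g x‖) {M : ℝ} (hM : μ Set.univ ≤ ENNReal.ofReal M) :
    (S.card * lam) ^ 2 ≤ M * ∑ x ∈ S, ∑ y ∈ S, ‖Ext μ (fun _ => 1) (x - y)‖ := by
  rcases le_or_gt M 0 with hM0 | hM0
  · have hμ : μ = 0 := by
      rw [← Measure.measure_univ_eq_zero]
      rw [ENNReal.ofReal_of_nonpos hM0] at hM
      exact le_antisymm hM zero_le
    subst hμ
    have h0 : ∀ (k : V → ℂ) (x : V), Ext (0 : Measure V) k x = 0 := fun k x => by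
      unfold Ext; simp
    simp only [h0, norm_zero, Finset.sum_const_zero, mul_zero]
    rcases S.eq_empty_or_nonempty with h | ⟨x, hx⟩
    · subst h; simp
    · have := hS x hx
      rw [h0, norm_zero] at this
      have : lam = 0 := le_antisymm this hlam
      subst this; simp
  have hgi : Integrable g μ := Integrable.of_bound hgm.aestronglyMeasurable 1
    (Filter.Eventually.of_forall hg1)
  set w : V → ℂ := fun x => conj (Ext μ g x) / ‖Ext μ g x‖ with hw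
  have hw1 : ∀ x, ‖w x‖ ≤ 1 := by
    intro x
    rw [hw]
    simp only [norm_div, RCLike.norm_conj, Complex.norm_real, norm_norm]
    exact div_self_le_one _
  have hwE : ∀ x, w x * Ext μ g x = ‖Ext μ g x‖ := by
    intro x
    rw [hw]
    simp only
    by_cases h : Ext μ g x = 0
    · simp [h]
    · have h' : (‖Ext μ g x‖ : ℂ) ≠ 0 := by simpa using h
      rw [div_mul_eq_mul_div, mul_comm, Complex.mul_conj', pow_two, mul_div_assoc, div_self h',
        mul_one]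
  have hF : Measurable fun ξ : V => ‖∑ x ∈ S, w x * ch x ξ‖ₑ :=
    (continuous_finsetSum S fun x _ =>
      (continuous_const.mul (continuous_ch_right x) : Continuous fun ξ : V => w x * ch x ξ)
      ).measurable.enorm
  have h1 : ENNReal.ofReal (S.card * lam) ≤ ∫⁻ ξ, ‖g ξ‖ₑ * ‖∑ x ∈ S, w x * ch x ξ‖ₑ ∂μ := by
    have h2 : (S.card * lam : ℝ) ≤ ∑ x ∈ S, ‖Ext μ g x‖ := by
      calc (S.card * lam : ℝ) = ∑ _x ∈ S, lam := by simp
        _ ≤ _ := Finset.sum_le_sum hS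
    have h3 : ((∑ x ∈ S, ‖Ext μ g x‖ : ℝ) : ℂ) = ∫ ξ, g ξ * ∑ x ∈ S, w x * ch x ξ ∂μ := by
      have e1 : ∀ ξ, g ξ * ∑ x ∈ S, w x * ch x ξ = ∑ x ∈ S, w x * (g ξ * ch x ξ) := by
        intro ξ
        rw [Finset.mul_sum]
        refine Finset.sum_congr rfl fun x _ => ?_
        ring
      simp_rw [e1]
      rw [integral_finsetSum]
      · push_cast
        refine Finset.sum_congr rfl fun x _ => ?_
        rw [integral_const_mul, ← hwE x]
        rfl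
      · intro x _
        refine Integrable.const_mul ?_ _
        exact hgi.mul_bdd (c := 1) (continuous_ch_right x).aestronglyMeasurable
          (Filter.Eventually.of_forall fun ξ => by simp)
    calc ENNReal.ofReal (S.card * lam) ≤ ENNReal.ofReal (∑ x ∈ S, ‖Ext μ g x‖) :=
          ENNReal.ofReal_le_ofReal h2
      _ = ‖((∑ x ∈ S, ‖Ext μ g x‖ : ℝ) : ℂ)‖ₑ := by
          rw [← ofReal_norm, Complex.norm_real, Real.norm_of_nonneg
            (Finset.sum_nonneg fun _ _ => norm_nonneg _)]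
      _ ≤ ∫⁻ ξ, ‖g ξ * ∑ x ∈ S, w x * ch x ξ‖ₑ ∂μ := by
          rw [h3]; exact enorm_integral_le_lintegral_enorm _
      _ = _ := by
          refine lintegral_congr fun ξ => ?_
          rw [enorm_mul]
  have h2 : ENNReal.ofReal ((S.card * lam) ^ 2)
      ≤ ENNReal.ofReal (M * ∑ x ∈ S, ∑ y ∈ S, ‖Ext μ (fun _ => 1) (x - y)‖) := by
    rw [ENNReal.ofReal_pow (mul_nonneg (Nat.cast_nonneg _) hlam), ENNReal.ofReal_mul hM0.le]
    calc ENNReal.ofReal (S.card * lam) ^ 2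
        ≤ (∫⁻ ξ, ‖g ξ‖ₑ * ‖∑ x ∈ S, w x * ch x ξ‖ₑ ∂μ) ^ 2 := by gcongr
      _ = (∫⁻ ξ, ‖g ξ‖ₑ * ‖∑ x ∈ S, w x * ch x ξ‖ₑ * 1 ∂μ) ^ 2 := by simp
      _ ≤ (∫⁻ ξ, ‖g ξ‖ₑ ^ 2 * 1 ∂μ) * ∫⁻ ξ, ‖∑ x ∈ S, w x * ch x ξ‖ₑ ^ 2 * 1 ∂μ :=
          cs_lint (w := fun _ => 1) hgm.enorm hF measurable_const
      _ ≤ ENNReal.ofReal M *
          ENNReal.ofReal (∑ x ∈ S, ∑ y ∈ S, ‖Ext μ (fun _ => 1) (x - y)‖) := by
          gcongr
          · calc ∫⁻ ξ, ‖g ξ‖ₑ ^ 2 * 1 ∂μ ≤ ∫⁻ _ξ, 1 ∂μ := by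
                  refine lintegral_mono fun ξ => ?_
                  have : ‖g ξ‖ₑ ≤ 1 := by
                    rw [← ofReal_norm]
                    exact ENNReal.ofReal_le_one.2 (hg1 ξ)
                  rw [mul_one]
                  exact pow_le_one₀ zero_le this
              _ = μ Set.univ := by simp
              _ ≤ _ := hM
          · simp only [mul_one]
            exact lint_sum_ch S hw1
  refine (ENNReal.ofReal_le_ofReal_iff ?_).1 h2
  exact mul_nonneg hM0.le (Finset.sum_nonneg fun _ _ => Finset.sum_nonneg fun _ _ => norm_nonneg _)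

lemma packing (S : Finset V) (hS : ∀ x ∈ S, ∀ y ∈ S, x ≠ y → 1 ≤ dist x y) (x : V) {ρ : ℝ}
    (hρ : 0 ≤ ρ) : ((S.filter fun y => dist x y ≤ ρ).card : ℝ) ≤ (2 * ρ + 1) ^ 3 := by
  set Q := S.filter fun y => dist x y ≤ ρ with hQ
  have hfin : Module.finrank ℝ V = 3 := by simp
  set v : ℝ≥0∞ := volume (Metric.ball (0 : V) 1) with hv
  have hv0 : v ≠ 0 := (Metric.measure_ball_pos volume (0 : V) one_pos).ne'
  have hv1 : v ≠ ⊤ := measure_ball_lt_top.ne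
  have hdisj : (Q : Set V).PairwiseDisjoint fun y => Metric.ball y (1 / 2 : ℝ) := by
    intro y hy z hz hyz
    refine Metric.ball_disjoint_ball ?_
    have := hS y (Finset.mem_filter.1 hy).1 z (Finset.mem_filter.1 hz).1 hyz
    linarith
  have h1 : ∑ y ∈ Q, volume (Metric.ball y (1 / 2 : ℝ))
      ≤ volume (Metric.ball x (ρ + 1 / 2)) := by
    rw [← measure_biUnion_finset hdisj fun _ _ => Metric.isOpen_ball.measurableSet]
    refine measure_mono ?_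
    intro z hz
    simp only [Set.mem_iUnion] at hz
    obtain ⟨y, hy, hz⟩ := hz
    have h2 := (Finset.mem_filter.1 hy).2
    rw [Metric.mem_ball] at hz ⊢
    have h3 := dist_triangle z y x
    rw [dist_comm y x] at h3
    linarith
  have e1 : ∀ y : V, volume (Metric.ball y (1 / 2 : ℝ)) = ENNReal.ofReal ((1 / 2 : ℝ) ^ 3) * v := by
    intro y
    rw [hv, Measure.addHaar_ball volume y (by norm_num : (0 : ℝ) ≤ 1 / 2), hfin]
  have e2 : volume (Metric.ball x (ρ + 1 / 2)) = ENNReal.ofReal ((ρ + 1 / 2) ^ 3) * v := by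
    rw [hv, Measure.addHaar_ball volume x (by positivity : (0 : ℝ) ≤ ρ + 1 / 2), hfin]
  simp only [e1, e2] at h1
  rw [Finset.sum_const, nsmul_eq_mul, ← mul_assoc] at h1
  have h4 : ((Q.card : ℕ) : ℝ≥0∞) * ENNReal.ofReal ((1 / 2 : ℝ) ^ 3)
      ≤ ENNReal.ofReal ((ρ + 1 / 2) ^ 3) := (ENNReal.mul_le_mul_iff_left hv0 hv1).1 h1
  rw [← ENNReal.ofReal_natCast, ← ENNReal.ofReal_mul (Nat.cast_nonneg _),
    ENNReal.ofReal_le_ofReal_iff (by positivity)] at h4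
  have h5 : (2 * ρ + 1) ^ 3 = 8 * (ρ + 1 / 2) ^ 3 := by ring
  rw [h5]
  norm_num at h4 ⊢
  linarith

/-- A separated set of points where the extension is at least `M / t` has polynomially many
points. -/
lemma count {μ : Measure V} [IsFiniteMeasure μ] {β C₀ : ℝ} (hβ : 0 < β) (hC₀ : 0 ≤ C₀)
    (hdec : Decay μ β C₀) {b : ℕ} (hb : 1 ≤ b * β) {M : ℝ} (hM0 : 0 < M)
    (hM : μ Set.univ ≤ ENNReal.ofReal M) {g : V → ℂ} (hgm : Measurable g)
    (hg1 : ∀ ξ, ‖g ξ‖ ≤ 1) {t : ℝ} (ht : 1 ≤ t) (S : Finset V)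
    (hsep : ∀ x ∈ S, ∀ y ∈ S, x ≠ y → 1 ≤ dist x y) (hS : ∀ x ∈ S, M / t ≤ ‖Ext μ g x‖) :
    (S.card : ℝ) ≤ 54 * (1 + 2 * C₀ / M) ^ (3 * b) * t ^ (2 + 6 * b) := by
  have ht0 : 0 < t := by linarith
  set c : ℝ := 1 + 2 * C₀ / M with hc
  have hc1 : 1 ≤ c := by
    have : 0 ≤ 2 * C₀ / M := by positivity
    linarith
  have hcM : C₀ ≤ c * M / 2 := by
    rw [hc, add_mul, div_mul_cancel₀ _ hM0.ne']
    linarith
  set s : ℝ := c * t ^ 2 with hs
  have hs1 : 1 ≤ s := by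
    have : 1 ≤ t ^ 2 := one_le_pow₀ ht
    nlinarith
  set ρ : ℝ := s ^ b with hρ
  have hρ1 : 1 ≤ ρ := one_le_pow₀ hs1
  have hρ0 : 0 < ρ := by linarith
  have hρβ : ρ ^ (-β) ≤ 1 / s := by
    rw [Real.rpow_neg hρ0.le, one_div]
    refine inv_anti₀ (by linarith) ?_
    rw [hρ, ← Real.rpow_natCast, ← Real.rpow_mul (by linarith)]
    calc s = s ^ (1 : ℝ) := (Real.rpow_one s).symm
      _ ≤ s ^ ((b : ℝ) * β) := Real.rpow_le_rpow_of_exponent_le hs1 hb
  have hfar : ∀ x y : V, ρ < dist x y → ‖Ext μ (fun _ => 1) (x - y)‖ ≤ M / (2 * t ^ 2) := by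
    intro x y hxy
    calc ‖Ext μ (fun _ => 1) (x - y)‖ ≤ C₀ * (1 + ‖x - y‖) ^ (-β) := hdec _
      _ ≤ C₀ * ρ ^ (-β) := by
          gcongr ?_ * ?_
          refine Real.rpow_le_rpow_of_nonpos hρ0 ?_ (by linarith)
          rw [← dist_eq_norm]; linarith
      _ ≤ (c * M / 2) * (1 / s) := by gcongr
      _ = M / (2 * t ^ 2) := by rw [hs]; field_simp
  have hall : ∀ x y : V, ‖Ext μ (fun _ => 1) (x - y)‖ ≤ M := by
    intro x y
    refine (norm_Ext_le _ _ _).trans ?_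
    simp only [norm_one, integral_const, smul_eq_mul, mul_one]
    exact ENNReal.toReal_le_of_le_ofReal hM0.le hM
  have hrow : ∀ x, ∑ y ∈ S, ‖Ext μ (fun _ => 1) (x - y)‖
      ≤ (2 * ρ + 1) ^ 3 * M + S.card * (M / (2 * t ^ 2)) := by
    intro x
    rw [← Finset.sum_filter_add_sum_filter_not S (fun y => dist x y ≤ ρ)]
    refine add_le_add ?_ ?_
    · calc ∑ y ∈ S.filter fun y => dist x y ≤ ρ, ‖Ext μ (fun _ => 1) (x - y)‖
          ≤ ∑ _y ∈ S.filter fun y => dist x y ≤ ρ, M := Finset.sum_le_sum fun y _ => hall x y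
        _ = ((S.filter fun y => dist x y ≤ ρ).card : ℝ) * M := by simp
        _ ≤ _ := by
            gcongr
            exact packing S hsep x hρ0.le
    · calc ∑ y ∈ S.filter fun y => ¬ dist x y ≤ ρ, ‖Ext μ (fun _ => 1) (x - y)‖
          ≤ ∑ _y ∈ S.filter fun y => ¬ dist x y ≤ ρ, M / (2 * t ^ 2) :=
            Finset.sum_le_sum fun y hy => hfar x y (not_le.1 (Finset.mem_filter.1 hy).2)
        _ = ((S.filter fun y => ¬ dist x y ≤ ρ).card : ℝ) * (M / (2 * t ^ 2)) := by simp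
        _ ≤ _ := by
            gcongr
            exact Finset.filter_subset _ _
  have hmain := card_sq_le hgm hg1 S (lam := M / t) (by positivity) hS hM
  have h1 : ∑ x ∈ S, ∑ y ∈ S, ‖Ext μ (fun _ => 1) (x - y)‖
      ≤ S.card * ((2 * ρ + 1) ^ 3 * M + S.card * (M / (2 * t ^ 2))) := by
    calc _ ≤ ∑ _x ∈ S, ((2 * ρ + 1) ^ 3 * M + S.card * (M / (2 * t ^ 2))) :=
          Finset.sum_le_sum fun x _ => hrow x
      _ = _ := by simp only [Finset.sum_const, nsmul_eq_mul]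
  set N : ℝ := (S.card : ℝ) with hN
  have hN0 : 0 ≤ N := Nat.cast_nonneg _
  have h2 : (N * (M / t)) ^ 2 ≤ M * (N * ((2 * ρ + 1) ^ 3 * M + N * (M / (2 * t ^ 2)))) :=
    hmain.trans (by gcongr)
  rcases hN0.eq_or_lt with h0 | hNpos
  · rw [← h0]; positivity
  have h3 : N * (M ^ 2 / t ^ 2) ≤ (2 * ρ + 1) ^ 3 * M ^ 2 + N * (M ^ 2 / (2 * t ^ 2)) := by
    have : N * (N * (M ^ 2 / t ^ 2))
        ≤ N * ((2 * ρ + 1) ^ 3 * M ^ 2 + N * (M ^ 2 / (2 * t ^ 2))) := by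
      calc N * (N * (M ^ 2 / t ^ 2)) = (N * (M / t)) ^ 2 := by ring
        _ ≤ _ := h2
        _ = _ := by ring
    exact le_of_mul_le_mul_left this hNpos
  have h4 : N * (M ^ 2 / (2 * t ^ 2)) ≤ (2 * ρ + 1) ^ 3 * M ^ 2 := by
    have e : N * (M ^ 2 / t ^ 2) = N * (M ^ 2 / (2 * t ^ 2)) + N * (M ^ 2 / (2 * t ^ 2)) := by
      field_simp; ring
    linarith
  have h5 : N ≤ (2 * ρ + 1) ^ 3 * (2 * t ^ 2) := by
    have e : N * (M ^ 2 / (2 * t ^ 2)) = (N / (2 * t ^ 2)) * M ^ 2 := by ring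
    rw [e] at h4
    have h6 := le_of_mul_le_mul_right h4 (by positivity : 0 < M ^ 2)
    rwa [div_le_iff₀ (by positivity)] at h6
  calc N ≤ (2 * ρ + 1) ^ 3 * (2 * t ^ 2) := h5
    _ ≤ (2 * ρ + ρ) ^ 3 * (2 * t ^ 2) := by gcongr
    _ = 54 * ρ ^ 3 * t ^ 2 := by ring
    _ = 54 * c ^ (3 * b) * t ^ (2 + 6 * b) := by
        rw [hρ, hs, mul_pow, mul_pow, ← pow_mul, ← pow_mul, ← pow_mul, pow_add]
        ring

/-- Maximal separated sets. -/
lemma exists_net {G : Set V} {n : ℝ} (hn : ∀ S : Finset V, (∀ x ∈ S, x ∈ G) →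
    (∀ x ∈ S, ∀ y ∈ S, x ≠ y → 1 ≤ dist x y) → (S.card : ℝ) ≤ n) :
    ∃ S : Finset V, (∀ x ∈ S, x ∈ G) ∧ (∀ x ∈ S, ∀ y ∈ S, x ≠ y → 1 ≤ dist x y) ∧
      ∀ x ∈ G, ∃ y ∈ S, dist x y < 1 := by
  classical
  set P : Set ℕ := {k | ∃ S : Finset V, ((∀ x ∈ S, x ∈ G) ∧
    (∀ x ∈ S, ∀ y ∈ S, x ≠ y → 1 ≤ dist x y)) ∧ S.card = k} with hP
  have hne : P.Nonempty := ⟨0, ∅, by simp, by simp⟩
  have hbd : BddAbove P := by
    refine ⟨⌈n⌉₊, ?_⟩
    rintro k ⟨S, ⟨h1, h2⟩, rfl⟩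
    have := (hn S h1 h2).trans (Nat.le_ceil n)
    exact_mod_cast this
  obtain ⟨S, ⟨h1, h2⟩, h3⟩ := Nat.sSup_mem hne hbd
  refine ⟨S, h1, h2, ?_⟩
  intro x hx
  by_contra hcon
  push Not at hcon
  have hxS : x ∉ S := fun h => by
    have := hcon x h
    rw [dist_self] at this
    linarith
  have h4 : (insert x S).card ∈ P := by
    refine ⟨insert x S, ⟨?_, ?_⟩, rfl⟩
    · intro y hy
      rcases Finset.mem_insert.1 hy with rfl | hy
      · exact hx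
      · exact h1 y hy
    · intro y hy z hz hyz
      rcases Finset.mem_insert.1 hy with hy' | hy'
      · rcases Finset.mem_insert.1 hz with hz' | hz'
        · exact absurd (hy'.trans hz'.symm) hyz
        · rw [hy']; exact hcon z hz'
      · rcases Finset.mem_insert.1 hz with hz' | hz'
        · rw [hz', dist_comm]; exact hcon y hy'
        · exact h2 y hy' z hz' hyz
  have h5 := le_csSup hbd h4
  rw [Finset.card_insert_of_notMem hxS, h3] at h5
  omega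

end Vale.Agent.P122.EPS
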