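import Vale.Agent.P122.EPS895.Local

/-!
# Interface of the epsilon removal
-/

namespace Vale.Agent.P122.EPS

open MeasureTheory
open scoped ENNReal NNReal ComplexConjugate

/-- The local estimate at the origin. -/
def Loc (μ : Measure V) (K : ℕ) : Prop :=
  ∀ ε : ℝ, 0 < ε → ∃ C : ℝ, 0 ≤ C ∧ ∀ (R : ℝ) (g : V → ℂ), 1 ≤ R → Measurable g →
    (∀ ξ, ‖g ξ‖ ≤ 1) →
    ∫⁻ x in Metric.ball (0 : V) R, ‖Ext μ g x‖ₑ ^ 3 ≤
      ENNReal.ofReal (C * R ^ (ε - 1)) * ∫⁻ x, ‖Ext μ g x‖ₑ ^ 2 * ENNReal.ofReal (wt K R x)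

/-- Polynomial decay of the Fourier transform of the measure. -/
def Decay (μ : Measure V) (β C : ℝ) : Prop :=
  ∀ x, ‖Ext μ (fun _ => 1) x‖ ≤ C * (1 + ‖x‖) ^ (-β)

/-- Restricted weak type bounds with exponents above `3`. -/
def RWeak (μ : Measure V) : Prop :=
  ∀ q : ℝ, 3 < q → ∃ C : ℝ≥0, ∀ (g : V → ℂ) (Ω : Set V), Measurable g → MeasurableSet Ω →
    (∀ ξ, ‖g ξ‖ ≤ 1) → (∀ ξ, ξ ∉ Ω → g ξ = 0) → ∀ lam : ℝ, 0 < lam →
    volume {x | lam < ‖Ext μ g x‖} ≤ C * ENNReal.ofReal (lam ^ (-q)) * μ Ω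

/-- The strong diagonal bounds with exponents above `3`. -/
def Strong (μ : Measure V) : Prop :=
  ∀ p : ℝ, 3 < p → ∃ C : ℝ≥0, ∀ f : V → ℂ, Measurable f →
    eLpNorm (Ext μ f) (ENNReal.ofReal p) volume ≤ C * eLpNorm f (ENNReal.ofReal p) μ

end Vale.Agent.P122.EPS
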