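import Vale.Agent.P122.EPS895.Count
import Vale.Agent.P122.H800.Cover

/-!
# From the local estimate to restricted weak type bounds
-/

namespace Vale.Agent.P122.EPS

open MeasureTheory
open scoped ENNReal NNReal ComplexConjugate

lemma Ext_mul_ch (μ : Measure V) (g : V → ℂ) (c x : V) :
    Ext μ (fun ξ => g ξ * ch c ξ) x = Ext μ g (x + c) := by
  unfold Ext
  congr 1
  funext ξ
  rw [ch_add_left]
  ring

/-- The local estimate at any centre. -/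
lemma loc_at {μ : Measure V} {K : ℕ} {C ε : ℝ}
    (h : ∀ (R : ℝ) (g : V → ℂ), 1 ≤ R → Measurable g → (∀ ξ, ‖g ξ‖ ≤ 1) →
      ∫⁻ x in Metric.ball (0 : V) R, ‖Ext μ g x‖ₑ ^ 3 ≤
        ENNReal.ofReal (C * R ^ (ε - 1)) *
          ∫⁻ x, ‖Ext μ g x‖ₑ ^ 2 * ENNReal.ofReal (wt K R x))
    {R : ℝ} (hR : 1 ≤ R) {g : V → ℂ} (hgm : Measurable g) (hg1 : ∀ ξ, ‖g ξ‖ ≤ 1) (c : V) :
    ∫⁻ x in Metric.ball c R, ‖Ext μ g x‖ₑ ^ 3 ≤
      ENNReal.ofReal (C * R ^ (ε - 1)) *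
        ∫⁻ x, ‖Ext μ g x‖ₑ ^ 2 * ENNReal.ofReal (wt K R (x - c)) := by
  have h1 := h R (fun ξ => g ξ * ch c ξ) hR
    (hgm.mul (continuous_ch_right c).measurable) (fun ξ => by
      rw [norm_mul, norm_ch, mul_one]; exact hg1 ξ)
  simp_rw [Ext_mul_ch] at h1
  have e1 : ∫⁻ x in Metric.ball (0 : V) R, ‖Ext μ g (x + c)‖ₑ ^ 3
      = ∫⁻ x in Metric.ball c R, ‖Ext μ g x‖ₑ ^ 3 := by
    rw [← lintegral_indicator Metric.isOpen_ball.measurableSet,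
      ← lintegral_indicator Metric.isOpen_ball.measurableSet]
    rw [← lintegral_add_right_eq_self
      ((Metric.ball c R).indicator fun x => ‖Ext μ g x‖ₑ ^ 3) c]
    refine lintegral_congr fun x => ?_
    by_cases hx : x ∈ Metric.ball (0 : V) R
    · rw [Set.indicator_of_mem hx, Set.indicator_of_mem]
      rw [mem_ball_iff_norm] at hx ⊢
      simpa using hx
    · rw [Set.indicator_of_notMem hx, Set.indicator_of_notMem]
      rw [mem_ball_iff_norm] at hx ⊢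
      simpa using hx
  have e2 : ∫⁻ x, ‖Ext μ g (x + c)‖ₑ ^ 2 * ENNReal.ofReal (wt K R x)
      = ∫⁻ x, ‖Ext μ g x‖ₑ ^ 2 * ENNReal.ofReal (wt K R (x - c)) := by
    rw [← lintegral_add_right_eq_self
      (fun x => ‖Ext μ g x‖ₑ ^ 2 * ENNReal.ofReal (wt K R (x - c))) c]
    simp
  rwa [e1, e2] at h1

/-- One sparse family of balls. -/
lemma family {μ : Measure V} [IsFiniteMeasure μ] {A β C₀ : ℝ} (hA : Growth μ A) (hA0 : 0 ≤ A)
    (hβ : 0 < β) (hβ1 : β ≤ 1) (hC₀ : 0 ≤ C₀) (hdec : Decay μ β C₀) {K : ℕ} (hK : 6 ≤ K)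
    {C ε : ℝ} (hC : 0 ≤ C)
    (h : ∀ (R : ℝ) (g : V → ℂ), 1 ≤ R → Measurable g → (∀ ξ, ‖g ξ‖ ≤ 1) →
      ∫⁻ x in Metric.ball (0 : V) R, ‖Ext μ g x‖ₑ ^ 3 ≤
        ENNReal.ofReal (C * R ^ (ε - 1)) *
          ∫⁻ x, ‖Ext μ g x‖ₑ ^ 2 * ENNReal.ofReal (wt K R x))
    {R : ℝ} (hR : 1 ≤ R) {D : ℝ} (hD : 0 < D) (T : Finset V)
    (hT : ∀ c ∈ T, ∀ d ∈ T, c ≠ d → D ≤ dist c d)
    (hsep : 2 * C₀ * cJ.toReal * T.card * R ^ 6 ≤ D ^ β) {g : V → ℂ} (hgm : Measurable g)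
    (hg1 : ∀ ξ, ‖g ξ‖ ≤ 1) {lam : ℝ} (hlam : 0 < lam) :
    volume ({x | lam < ‖Ext μ g x‖} ∩ ⋃ c ∈ T, Metric.ball c R)
      ≤ ENNReal.ofReal ((lam ^ 3)⁻¹ * (C * (cW.toReal * A + 1)) * R ^ ε)
        * ∫⁻ ξ, ‖g ξ‖ₑ ^ 2 ∂μ := by
  have hR0 : 0 < R := by linarith
  have hgi : Integrable g μ := Integrable.of_bound hgm.aestronglyMeasurable 1
    (Filter.Eventually.of_forall hg1)
  have hEm : Measurable fun x => ‖Ext μ g x‖ₑ ^ 3 :=
    ((continuous_Ext hgi).measurable.enorm).pow_const 3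
  have hcheb : ∀ c : V, volume ({x | lam < ‖Ext μ g x‖} ∩ Metric.ball c R)
      ≤ ENNReal.ofReal (lam ^ 3)⁻¹ * ∫⁻ x in Metric.ball c R, ‖Ext μ g x‖ₑ ^ 3 := by
    intro c
    have h1 := mul_meas_ge_le_lintegral (μ := volume.restrict (Metric.ball c R)) hEm
      (ENNReal.ofReal (lam ^ 3))
    have h2 : volume ({x | lam < ‖Ext μ g x‖} ∩ Metric.ball c R)
        ≤ (volume.restrict (Metric.ball c R)) {x | ENNReal.ofReal (lam ^ 3) ≤ ‖Ext μ g x‖ₑ ^ 3} := by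
      rw [Measure.restrict_apply' Metric.isOpen_ball.measurableSet]
      refine measure_mono (Set.inter_subset_inter_left _ fun x hx => ?_)
      simp only [Set.mem_setOf_eq] at hx ⊢
      rw [← ofReal_norm, ← ENNReal.ofReal_pow (norm_nonneg _)]
      exact ENNReal.ofReal_le_ofReal (pow_le_pow_left₀ hlam.le hx.le 3)
    have h3 : ENNReal.ofReal (lam ^ 3)⁻¹ * ENNReal.ofReal (lam ^ 3) = 1 := by
      rw [← ENNReal.ofReal_mul (by positivity), inv_mul_cancel₀ (by positivity),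
        ENNReal.ofReal_one]
    calc volume ({x | lam < ‖Ext μ g x‖} ∩ Metric.ball c R)
        = ENNReal.ofReal (lam ^ 3)⁻¹ * (ENNReal.ofReal (lam ^ 3) *
          volume ({x | lam < ‖Ext μ g x‖} ∩ Metric.ball c R)) := by
          rw [← mul_assoc, h3, one_mul]
      _ ≤ ENNReal.ofReal (lam ^ 3)⁻¹ * ∫⁻ x in Metric.ball c R, ‖Ext μ g x‖ₑ ^ 3 := by
          gcongr
          exact le_trans (by gcongr) h1
  have hB : (cW * ENNReal.ofReal (A * R) + 1) ≤ ENNReal.ofReal ((cW.toReal * A + 1) * R) := by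
    obtain ⟨q, hq, hq0⟩ : ∃ q : ℝ, q = cW.toReal ∧ 0 ≤ q := ⟨_, rfl, ENNReal.toReal_nonneg⟩
    have h4 : cW = ENNReal.ofReal q := by rw [hq, ENNReal.ofReal_toReal cW_ne_top]
    rw [← hq, h4, ← ENNReal.ofReal_mul hq0, ← ENNReal.ofReal_one, ← ENNReal.ofReal_add
      (by positivity) zero_le_one]
    apply ENNReal.ofReal_le_ofReal
    nlinarith
  have hcW0 : 0 ≤ cW.toReal := ENNReal.toReal_nonneg
  calc volume ({x | lam < ‖Ext μ g x‖} ∩ ⋃ c ∈ T, Metric.ball c R)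
      = volume (⋃ c ∈ T, ({x | lam < ‖Ext μ g x‖} ∩ Metric.ball c R)) := by
        rw [Set.inter_iUnion₂]
    _ ≤ ∑ c ∈ T, volume ({x | lam < ‖Ext μ g x‖} ∩ Metric.ball c R) :=
        measure_biUnion_finset_le _ _
    _ ≤ ∑ c ∈ T, ENNReal.ofReal (lam ^ 3)⁻¹ * (ENNReal.ofReal (C * R ^ (ε - 1)) *
        ∫⁻ x, ‖Ext μ g x‖ₑ ^ 2 * ENNReal.ofReal (wt K R (x - c))) := by
        refine Finset.sum_le_sum fun c _ => (hcheb c).trans ?_
        gcongr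
        exact loc_at h hR hgm hg1 c
    _ = ENNReal.ofReal (lam ^ 3)⁻¹ * (ENNReal.ofReal (C * R ^ (ε - 1)) *
        ∑ c ∈ T, ∫⁻ x, ‖Ext μ g x‖ₑ ^ 2 * ENNReal.ofReal (wt K R (x - c))) := by
        rw [← Finset.mul_sum, ← Finset.mul_sum]
    _ ≤ ENNReal.ofReal (lam ^ 3)⁻¹ * (ENNReal.ofReal (C * R ^ (ε - 1)) *
        (ENNReal.ofReal ((cW.toReal * A + 1) * R) * ∫⁻ ξ, ‖g ξ‖ₑ ^ 2 ∂μ)) := by
        gcongr
        refine (sparse hA hβ hβ1 hC₀ hdec hK hR hD T hT hsep hgm hg1).trans ?_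
        gcongr
    _ = _ := by
        rw [← mul_assoc, ← mul_assoc, ← ENNReal.ofReal_mul (by positivity),
          ← ENNReal.ofReal_mul (by positivity)]
        congr 2
        rw [Real.rpow_sub_one hR0.ne']
        field_simp

/-- The radii. -/
noncomputable def rad (b : ℕ) (H : ℝ) : ℕ → ℝ
  | 0 => 1
  | k + 1 => 4 * (H * (rad b H k + 2) ^ 6) ^ b

lemma one_le_rad {b : ℕ} {H : ℝ} (hH : 1 ≤ H) (k : ℕ) : 1 ≤ rad b H k := by
  induction k with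
  | zero => exact le_refl _
  | succ k ih =>
    rw [rad]
    have h1 : 1 ≤ (rad b H k + 2) ^ 6 := one_le_pow₀ (by linarith)
    have h2 : 1 ≤ H * (rad b H k + 2) ^ 6 := by nlinarith
    have h3 : 1 ≤ (H * (rad b H k + 2) ^ 6) ^ b := one_le_pow₀ h2
    linarith

lemma rad_succ_ge {b : ℕ} (hb : 1 ≤ b) {H : ℝ} (hH : 1 ≤ H) (k : ℕ) :
    2 * rad b H k ≤ rad b H (k + 1) := by
  have h0 := one_le_rad (b := b) hH k
  rw [rad]
  have h1 : rad b H k + 2 ≤ (rad b H k + 2) ^ 6 := le_self_pow₀ (by linarith) (by norm_num)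
  have h2 : rad b H k + 2 ≤ H * (rad b H k + 2) ^ 6 := by nlinarith
  have h3 : H * (rad b H k + 2) ^ 6 ≤ (H * (rad b H k + 2) ^ 6) ^ b :=
    le_self_pow₀ (by linarith) (by omega)
  linarith

lemma rad_mono {b : ℕ} (hb : 1 ≤ b) {H : ℝ} (hH : 1 ≤ H) : Monotone (rad b H) :=
  monotone_nat_of_le_succ fun k => by
    linarith [rad_succ_ge hb hH k, one_le_rad (b := b) hH k]

lemma rad_le (b k : ℕ) : ∃ (C : ℝ) (L : ℕ), 0 ≤ C ∧ ∀ H : ℝ, 1 ≤ H → rad b H k ≤ C * H ^ L := by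
  induction k with
  | zero => exact ⟨1, 0, zero_le_one, fun H _ => by simp [rad]⟩
  | succ k ih =>
    obtain ⟨C, L, hC, h⟩ := ih
    refine ⟨4 * ((C + 2) ^ 6) ^ b, (1 + L * 6) * b, by positivity, fun H hH => ?_⟩
    have h0 := one_le_rad (b := b) hH k
    have h1 : rad b H k + 2 ≤ (C + 2) * H ^ L := by
      have : 1 ≤ H ^ L := one_le_pow₀ hH
      nlinarith [h H hH]
    calc rad b H (k + 1) = 4 * (H * (rad b H k + 2) ^ 6) ^ b := by rw [rad]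
      _ ≤ 4 * (H * ((C + 2) * H ^ L) ^ 6) ^ b := by gcongr
      _ = _ := by
          rw [mul_pow (C + 2), ← pow_mul, pow_mul H (1 + L * 6) b, pow_add, pow_one]
          rw [show H * ((C + 2) ^ 6 * H ^ (L * 6)) = (C + 2) ^ 6 * (H * H ^ (L * 6)) by ring,
            mul_pow ((C + 2) ^ 6)]
          ring

end Vale.Agent.P122.EPS
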