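import Vale.Agent.P122.EPS895.Basic

/-!
# The local `L²` estimate
-/

namespace Vale.Agent.P122.EPS

open MeasureTheory
open scoped ENNReal NNReal ComplexConjugate

/-- The polynomial weight adapted to the ball of radius `R`. -/
noncomputable def wt (K : ℕ) (R : ℝ) (x : V) : ℝ := ((1 + ‖x‖ / R) ^ K)⁻¹

lemma wt_nonneg (K : ℕ) {R : ℝ} (hR : 0 < R) (x : V) : 0 ≤ wt K R x := by
  unfold wt; positivity

lemma wt_pos (K : ℕ) {R : ℝ} (hR : 0 < R) (x : V) : 0 < wt K R x := by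
  unfold wt; positivity

lemma wt_le_one (K : ℕ) {R : ℝ} (hR : 0 < R) (x : V) : wt K R x ≤ 1 := by
  unfold wt
  apply inv_le_one_of_one_le₀
  apply one_le_pow₀
  have : 0 ≤ ‖x‖ / R := by positivity
  linarith

lemma continuous_wt (K : ℕ) {R : ℝ} (hR : 0 < R) : Continuous (wt K R) := by
  unfold wt
  refine Continuous.inv₀ (by fun_prop) fun x => ?_
  positivity

/-- The Gaussian of width `S` centred at `x₀`. -/
noncomputable def gs (S : ℝ) (x₀ x : V) : ℝ := Real.exp (-(Real.pi / S ^ 2) * ‖x - x₀‖ ^ 2)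

lemma integrable_gs {S : ℝ} (hS : 0 < S) (x₀ : V) : Integrable (gs S x₀) := by
  have hb : 0 < Real.pi / S ^ 2 := by positivity
  have h := GaussianFourier.integrable_cexp_neg_mul_sq_norm_add (V := V)
    (b := ((Real.pi / S ^ 2 : ℝ) : ℂ)) (by rw [Complex.ofReal_re]; exact hb) 0 0
  have h2 : Integrable (fun x : V => Real.exp (-(Real.pi / S ^ 2) * ‖x‖ ^ 2)) := by
    have := h.norm
    refine this.congr (Filter.Eventually.of_forall fun x => ?_)
    simp only [zero_mul, add_zero]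
    rw [Complex.norm_exp]
    congr 1
    have : (-(((Real.pi / S ^ 2 : ℝ) : ℂ)) * ((‖x‖ : ℝ) : ℂ) ^ 2)
        = ((-(Real.pi / S ^ 2) * ‖x‖ ^ 2 : ℝ) : ℂ) := by push_cast; ring
    rw [this, Complex.ofReal_re]
  exact h2.comp_sub_right x₀

/-- The Fourier transform of the Gaussian. -/
lemma norm_Fh_gs {S : ℝ} (hS : 0 < S) (x₀ ζ : V) :
    ‖Fh (fun x => ((gs S x₀ x : ℝ) : ℂ)) ζ‖
      = S ^ 3 * Real.exp (-(Real.pi * S ^ 2) * ‖ζ‖ ^ 2) := by
  have hb : 0 < Real.pi / S ^ 2 := by positivity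
  have h0 : Fh (fun x => ((gs S x₀ x : ℝ) : ℂ)) ζ
      = ch (-x₀) ζ * ∫ x : V, Complex.exp (-((Real.pi / S ^ 2 : ℝ) : ℂ) * ((‖x‖ : ℝ) : ℂ) ^ 2
          + (-2 * Real.pi * Complex.I) * ((inner ℝ ζ x : ℝ) : ℂ)) := by
    unfold Fh
    rw [← integral_const_mul, ← integral_sub_right_eq_self (μ := (volume : Measure V))
      (fun x : V => ch (-x₀) ζ * Complex.exp (-((Real.pi / S ^ 2 : ℝ) : ℂ) * ((‖x‖ : ℝ) : ℂ) ^ 2
          + (-2 * Real.pi * Complex.I) * ((inner ℝ ζ x : ℝ) : ℂ))) x₀]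
    congr 1
    funext x
    unfold gs ch
    beta_reduce
    rw [Complex.ofReal_exp, ← Complex.exp_add, ← Complex.exp_add]
    congr 1
    rw [inner_neg_left, inner_neg_left, inner_sub_right, real_inner_comm x ζ,
      real_inner_comm x₀ ζ]
    push_cast
    ring
  rw [h0, norm_mul, norm_ch, one_mul,
    GaussianFourier.integral_cexp_neg_mul_sq_norm_add (V := V)
      (b := ((Real.pi / S ^ 2 : ℝ) : ℂ)) (by rw [Complex.ofReal_re]; exact hb)]
  rw [norm_mul]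
  congr 1
  · have h1 : (Real.pi : ℂ) / ((Real.pi / S ^ 2 : ℝ) : ℂ) = ((S ^ 2 : ℝ) : ℂ) := by
      rw [← Complex.ofReal_div]
      congr 1
      field_simp
    rw [h1]
    have h2 : ((Module.finrank ℝ V : ℂ) / 2) = ((3 / 2 : ℝ) : ℂ) := by
      simp
    rw [h2, Complex.norm_cpow_eq_rpow_re_of_pos (by positivity), Complex.ofReal_re]
    rw [← Real.rpow_natCast S 2, ← Real.rpow_mul hS.le, ← Real.rpow_natCast S 3]
    norm_num
  · rw [Complex.norm_exp]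
    congr 1
    have : (-2 * (Real.pi : ℂ) * Complex.I) ^ 2 * ((‖ζ‖ : ℝ) : ℂ) ^ 2
        / (4 * ((Real.pi / S ^ 2 : ℝ) : ℂ)) = ((-(Real.pi * S ^ 2) * ‖ζ‖ ^ 2 : ℝ) : ℂ) := by
      rw [mul_pow, Complex.I_sq]
      push_cast
      have hpi : (Real.pi : ℂ) ≠ 0 := by
        exact_mod_cast Real.pi_ne_zero
      have hSc : (S : ℂ) ≠ 0 := by exact_mod_cast hS.ne'
      field_simp
      ring
    rw [this, Complex.ofReal_re]

/-- Schur's test. -/
lemma schur {μ : Measure V} [SFinite μ] {k : V → V → ℝ≥0∞}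
    (hk : Measurable (Function.uncurry k)) (hs : ∀ ξ η, k ξ η = k η ξ) {B : ℝ≥0∞}
    (hB : ∀ ξ, ∫⁻ η, k ξ η ∂μ ≤ B) {f : V → ℝ≥0∞} (hf : Measurable f) :
    ∫⁻ ξ, ∫⁻ η, f ξ * f η * k ξ η ∂μ ∂μ ≤ 2 * B * ∫⁻ ξ, f ξ ^ 2 ∂μ := by
  have h1 : ∀ a b : ℝ≥0∞, a * b ≤ a ^ 2 + b ^ 2 := by
    intro a b
    rcases le_total a b with h | h
    · calc a * b ≤ b * b := by gcongr
        _ = b ^ 2 := by ring
        _ ≤ _ := le_add_self
    · calc a * b ≤ a * a := by gcongr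
        _ = a ^ 2 := by ring
        _ ≤ _ := le_self_add
  have hk1 : ∀ ξ, Measurable fun η => k ξ η := fun ξ =>
    hk.comp (measurable_const.prodMk measurable_id)
  have hA : ∫⁻ ξ, ∫⁻ η, f ξ ^ 2 * k ξ η ∂μ ∂μ ≤ B * ∫⁻ ξ, f ξ ^ 2 ∂μ := by
    calc ∫⁻ ξ, ∫⁻ η, f ξ ^ 2 * k ξ η ∂μ ∂μ = ∫⁻ ξ, f ξ ^ 2 * ∫⁻ η, k ξ η ∂μ ∂μ := by
          congr 1; funext ξ
          rw [lintegral_const_mul _ (hk1 ξ)]
      _ ≤ ∫⁻ ξ, f ξ ^ 2 * B ∂μ := by
          refine lintegral_mono fun ξ => ?_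
          gcongr
          exact hB ξ
      _ = B * ∫⁻ ξ, f ξ ^ 2 ∂μ := by
          rw [lintegral_mul_const _ (by fun_prop), mul_comm]
  have hA2 : ∫⁻ ξ, ∫⁻ η, f η ^ 2 * k ξ η ∂μ ∂μ ≤ B * ∫⁻ ξ, f ξ ^ 2 ∂μ := by
    rw [lintegral_lintegral_swap]
    · refine le_trans (le_of_eq ?_) hA
      congr 1; funext η; congr 1; funext ξ
      rw [hs]
    · refine Measurable.aemeasurable ?_
      refine Measurable.mul ?_ hk
      exact (hf.pow_const 2).comp measurable_snd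
  calc ∫⁻ ξ, ∫⁻ η, f ξ * f η * k ξ η ∂μ ∂μ
      ≤ ∫⁻ ξ, ∫⁻ η, (f ξ ^ 2 * k ξ η + f η ^ 2 * k ξ η) ∂μ ∂μ := by
        refine lintegral_mono fun ξ => lintegral_mono fun η => ?_
        rw [← add_mul]
        gcongr
        exact h1 _ _
    _ = ∫⁻ ξ, (∫⁻ η, f ξ ^ 2 * k ξ η ∂μ + ∫⁻ η, f η ^ 2 * k ξ η ∂μ) ∂μ := by
        congr 1; funext ξ
        rw [lintegral_add_left]
        exact (measurable_const.mul (hk1 ξ))
    _ = ∫⁻ ξ, ∫⁻ η, f ξ ^ 2 * k ξ η ∂μ ∂μ + ∫⁻ ξ, ∫⁻ η, f η ^ 2 * k ξ η ∂μ ∂μ := by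
        rw [lintegral_add_left]
        exact Measurable.lintegral_prod_right' (f := fun z : V × V => f z.1 ^ 2 * k z.1 z.2)
          (((hf.pow_const 2).comp measurable_fst).mul hk)
    _ ≤ B * ∫⁻ ξ, f ξ ^ 2 ∂μ + B * ∫⁻ ξ, f ξ ^ 2 ∂μ := add_le_add hA hA2
    _ = _ := by ring

/-- The universal constant `∑ e^{-n} (n+1)²`. -/
noncomputable def cG : ℝ≥0∞ := ∑' n : ℕ, ENNReal.ofReal (Real.exp (-n) * ((n : ℝ) + 1) ^ 2)

lemma cG_ne_top : cG ≠ ⊤ := by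
  unfold cG
  have h : Summable fun n : ℕ => Real.exp (-n) * ((n : ℝ) + 1) ^ 2 := by
    have h2 := Real.summable_pow_mul_exp_neg_nat_mul 2 (r := 1) one_pos
    have h3 := (summable_nat_add_iff 1).2 h2
    have h4 := h3.mul_left (Real.exp 1)
    refine h4.congr fun n => ?_
    push_cast
    rw [mul_left_comm, ← Real.exp_add]
    rw [show (1 : ℝ) + -1 * ((n : ℝ) + 1) = -n by ring]
    ring
  exact ENNReal.ofReal_tsum_of_nonneg (fun n => by positivity) h ▸ ENNReal.ofReal_ne_top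

/-- `2`-dimensional growth of balls. -/
def Growth (μ : Measure V) (A : ℝ) : Prop :=
  ∀ (ξ : V) (r : ℝ), 0 < r → μ (Metric.closedBall ξ r) ≤ ENNReal.ofReal (A * r ^ 2)

lemma lintegral_gauss_le {μ : Measure V} {A : ℝ} (hA : Growth μ A) {S : ℝ}
    (hS : 0 < S) (ξ : V) :
    ∫⁻ η, ENNReal.ofReal (S ^ 3 * Real.exp (-(Real.pi * S ^ 2) * ‖ξ - η‖ ^ 2)) ∂μ
      ≤ cG * ENNReal.ofReal (A * S) := by
  have hpt : ∀ η, ENNReal.ofReal (S ^ 3 * Real.exp (-(Real.pi * S ^ 2) * ‖ξ - η‖ ^ 2))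
      ≤ ∑' n : ℕ, ENNReal.ofReal (S ^ 3 * Real.exp (-n)) *
        (Metric.closedBall ξ (((n : ℝ) + 1) / S)).indicator (fun _ => (1 : ℝ≥0∞)) η := by
    intro η
    set n := ⌊S * ‖ξ - η‖⌋₊ with hn
    have h1 : (n : ℝ) ≤ S * ‖ξ - η‖ := Nat.floor_le (by positivity)
    have h2 : S * ‖ξ - η‖ < n + 1 := Nat.lt_floor_add_one _
    refine le_trans ?_ (ENNReal.le_tsum n)
    have hmem : η ∈ Metric.closedBall ξ (((n : ℝ) + 1) / S) := by
      rw [Metric.mem_closedBall, dist_comm, dist_eq_norm, le_div_iff₀ hS]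
      linarith
    rw [Set.indicator_of_mem hmem, mul_one]
    apply ENNReal.ofReal_le_ofReal
    gcongr
    have h3 : (n : ℝ) ≤ (n : ℝ) ^ 2 := by
      rcases Nat.eq_zero_or_pos n with h | h
      · rw [h]; simp
      · have : (1 : ℝ) ≤ n := by exact_mod_cast h
        nlinarith
    have h4 : (n : ℝ) ^ 2 ≤ (S * ‖ξ - η‖) ^ 2 := by gcongr
    have h5 : (1 : ℝ) ≤ Real.pi := by linarith [Real.pi_gt_three]
    nlinarith [mul_pow S ‖ξ - η‖ 2, sq_nonneg (S * ‖ξ - η‖)]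
  calc ∫⁻ η, ENNReal.ofReal (S ^ 3 * Real.exp (-(Real.pi * S ^ 2) * ‖ξ - η‖ ^ 2)) ∂μ
      ≤ ∫⁻ η, ∑' n : ℕ, ENNReal.ofReal (S ^ 3 * Real.exp (-n)) *
        (Metric.closedBall ξ (((n : ℝ) + 1) / S)).indicator (fun _ => (1 : ℝ≥0∞)) η ∂μ :=
        lintegral_mono hpt
    _ = ∑' n : ℕ, ENNReal.ofReal (S ^ 3 * Real.exp (-n)) *
        μ (Metric.closedBall ξ (((n : ℝ) + 1) / S)) := by
        rw [lintegral_tsum]
        · congr 1; funext n
          rw [lintegral_const_mul _ (by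
            exact measurable_const.indicator Metric.isClosed_closedBall.measurableSet)]
          rw [lintegral_indicator_const Metric.isClosed_closedBall.measurableSet, one_mul]
        · intro n
          exact (measurable_const.mul
            (measurable_const.indicator Metric.isClosed_closedBall.measurableSet)).aemeasurable
    _ ≤ ∑' n : ℕ, ENNReal.ofReal (Real.exp (-n) * ((n : ℝ) + 1) ^ 2) * ENNReal.ofReal (A * S) := by
        refine ENNReal.tsum_le_tsum fun n => ?_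
        calc ENNReal.ofReal (S ^ 3 * Real.exp (-n)) *
              μ (Metric.closedBall ξ (((n : ℝ) + 1) / S))
            ≤ ENNReal.ofReal (S ^ 3 * Real.exp (-n)) *
              ENNReal.ofReal (A * (((n : ℝ) + 1) / S) ^ 2) := by
              gcongr
              exact hA ξ _ (by positivity)
          _ = ENNReal.ofReal (Real.exp (-n) * ((n : ℝ) + 1) ^ 2) * ENNReal.ofReal (A * S) := by
              rw [← ENNReal.ofReal_mul (by positivity), ← ENNReal.ofReal_mul (by positivity)]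
              congr 1
              field_simp
    _ = cG * ENNReal.ofReal (A * S) := by
        rw [ENNReal.tsum_mul_right, cG]

/-- Local `L²` estimate, Gaussian weight. -/
lemma local_gs {μ : Measure V} [IsFiniteMeasure μ] {A : ℝ} (hA : Growth μ A)
    {S : ℝ} (hS : 0 < S) (x₀ : V) {g : V → ℂ} (hgm : Measurable g) (hg : Integrable g μ) :
    ∫⁻ x, ‖Ext μ g x‖ₑ ^ 2 * ENNReal.ofReal (gs S x₀ x)
      ≤ 2 * (cG * ENNReal.ofReal (A * S)) * ∫⁻ ξ, ‖g ξ‖ₑ ^ 2 ∂μ := by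
  have hγ : Integrable (fun x => ((gs S x₀ x : ℝ) : ℂ)) := (integrable_gs hS x₀).ofReal
  have hE : Continuous (Ext μ g) := continuous_Ext hg
  have hgs0 : ∀ x, 0 ≤ gs S x₀ x := fun x => (Real.exp_pos _).le
  have hEγ : Integrable (fun x => Ext μ g x * ((gs S x₀ x : ℝ) : ℂ)) :=
    hγ.bdd_mul hE.aestronglyMeasurable
      (Filter.Eventually.of_forall fun x => norm_Ext_le μ g x)
  have hpair := pairing hg hEγ
  have hint : Integrable (fun x => ‖Ext μ g x‖ ^ 2 * gs S x₀ x) := by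
    refine (integrable_gs hS x₀).bdd_mul (c := (∫ ξ, ‖g ξ‖ ∂μ) ^ 2)
      (hE.norm.pow 2).aestronglyMeasurable (Filter.Eventually.of_forall fun x => ?_)
    rw [Real.norm_of_nonneg (by positivity)]
    gcongr
    exact norm_Ext_le μ g x
  have hL : ∫ x, Ext μ g x * conj (Ext μ g x * ((gs S x₀ x : ℝ) : ℂ))
      = ((∫ x, ‖Ext μ g x‖ ^ 2 * gs S x₀ x : ℝ) : ℂ) := by
    rw [← integral_complex_ofReal]
    congr 1; funext x
    rw [map_mul, Complex.conj_ofReal, ← mul_assoc, Complex.mul_conj, Complex.normSq_eq_norm_sq]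
    push_cast
    ring
  have hLe : ∫⁻ x, ‖Ext μ g x‖ₑ ^ 2 * ENNReal.ofReal (gs S x₀ x)
      = ‖∫ x, Ext μ g x * conj (Ext μ g x * ((gs S x₀ x : ℝ) : ℂ))‖ₑ := by
    rw [hL]
    have h0 : 0 ≤ ∫ x, ‖Ext μ g x‖ ^ 2 * gs S x₀ x :=
      integral_nonneg fun x => mul_nonneg (by positivity) (hgs0 x)
    rw [← ofReal_norm, Complex.norm_real, Real.norm_of_nonneg h0,
      ofReal_integral_eq_lintegral_ofReal hint
        (Filter.Eventually.of_forall fun x => mul_nonneg (by positivity) (hgs0 x))]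
    congr 1; funext x
    rw [ENNReal.ofReal_mul (by positivity), ENNReal.ofReal_pow (norm_nonneg _), ofReal_norm]
  rw [hLe, hpair]
  have hFh : ∀ ξ, ‖Fh (fun x => Ext μ g x * ((gs S x₀ x : ℝ) : ℂ)) ξ‖ₑ
      ≤ ∫⁻ η, ‖g η‖ₑ *
        ENNReal.ofReal (S ^ 3 * Real.exp (-(Real.pi * S ^ 2) * ‖ξ - η‖ ^ 2)) ∂μ := by
    intro ξ
    rw [Fh_Ext_mul hg hγ]
    refine (enorm_integral_le_lintegral_enorm _).trans (le_of_eq ?_)
    congr 1; funext η
    rw [enorm_mul]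
    congr 1
    rw [← ofReal_norm, norm_Fh_gs hS]
  calc ‖∫ ξ, g ξ * conj (Fh (fun x => Ext μ g x * ((gs S x₀ x : ℝ) : ℂ)) ξ) ∂μ‖ₑ
      ≤ ∫⁻ ξ, ‖g ξ‖ₑ * ‖Fh (fun x => Ext μ g x * ((gs S x₀ x : ℝ) : ℂ)) ξ‖ₑ ∂μ := by
        refine (enorm_integral_le_lintegral_enorm _).trans (le_of_eq ?_)
        congr 1; funext ξ
        rw [enorm_mul]
        congr 1
        rw [← ofReal_norm, ← ofReal_norm, RCLike.norm_conj]
    _ ≤ ∫⁻ ξ, ∫⁻ η, ‖g ξ‖ₑ * ‖g η‖ₑ *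
        ENNReal.ofReal (S ^ 3 * Real.exp (-(Real.pi * S ^ 2) * ‖ξ - η‖ ^ 2)) ∂μ ∂μ := by
        refine lintegral_mono fun ξ => ?_
        refine (mul_le_mul_right (hFh ξ) _).trans (le_of_eq ?_)
        rw [← lintegral_const_mul _ (by fun_prop)]
        congr 1; funext η
        ring
    _ ≤ 2 * (cG * ENNReal.ofReal (A * S)) * ∫⁻ ξ, ‖g ξ‖ₑ ^ 2 ∂μ := by
        refine schur (k := fun ξ η =>
          ENNReal.ofReal (S ^ 3 * Real.exp (-(Real.pi * S ^ 2) * ‖ξ - η‖ ^ 2))) ?_ ?_ ?_ ?_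
        · unfold Function.uncurry; fun_prop
        · intro ξ η
          rw [norm_sub_rev]
        · exact fun ξ => lintegral_gauss_le hA hS ξ
        · fun_prop

end Vale.Agent.P122.EPS
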