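import Vale.Agent.P122.EPS895.Levels

/-!
# From the local estimate to restricted weak type bounds
-/

namespace Vale.Agent.P122.EPS

open MeasureTheory
open scoped ENNReal NNReal ComplexConjugate

/-- The bound of one super level set, `lam = M / t`. -/
lemma level_bound {μ : Measure V} [IsFiniteMeasure μ] {A β C₀ : ℝ} (hA : Growth μ A)
    (hA0 : 0 ≤ A) (hβ : 0 < β) (hβ1 : β ≤ 1) (hC₀ : 0 ≤ C₀) (hdec : Decay μ β C₀) {K : ℕ}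
    (hK : 6 ≤ K) {C ε : ℝ} (hC : 0 ≤ C) (hε : 0 < ε)
    (h : ∀ (R : ℝ) (g : V → ℂ), 1 ≤ R → Measurable g → (∀ ξ, ‖g ξ‖ ≤ 1) →
      ∫⁻ x in Metric.ball (0 : V) R, ‖Ext μ g x‖ₑ ^ 3 ≤
        ENNReal.ofReal (C * R ^ (ε - 1)) *
          ∫⁻ x, ‖Ext μ g x‖ₑ ^ 2 * ENNReal.ofReal (wt K R x))
    {b : ℕ} (hb1 : 1 ≤ b) (hb : 1 ≤ b * β) {M : ℝ} (hM0 : 0 < M)
    (hM : μ Set.univ ≤ ENNReal.ofReal M) {g : V → ℂ} (hgm : Measurable g)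
    (hg1 : ∀ ξ, ‖g ξ‖ ≤ 1) {lam : ℝ} (hlam : 0 < lam) {t : ℝ} (ht : 1 ≤ t)
    (htl : lam = M / t) {N : ℝ} (hN1 : 1 ≤ N)
    (hN : 54 * (1 + 2 * C₀ / M) ^ (3 * b) * t ^ (2 + 6 * b) ≤ N)
    {K₀ D : ℕ} (hD : 2 ≤ D) (hND : N < (D : ℝ) ^ K₀) :
    volume {x | lam < ‖Ext μ g x‖} ≤
      ENNReal.ofReal (((K₀ : ℝ) + 1) * D * ((lam ^ 3)⁻¹ * (C * (cW.toReal * A + 1)) *
        (rad b ((1 + 2 * C₀ * cJ.toReal) * N) K₀ + 2) ^ ε)) * ∫⁻ ξ, ‖g ξ‖ₑ ^ 2 ∂μ := by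
  classical
  have hcJ : 0 ≤ cJ.toReal := ENNReal.toReal_nonneg
  have hcW : 0 ≤ cW.toReal := ENNReal.toReal_nonneg
  set G : Set V := {x | lam < ‖Ext μ g x‖} with hG
  set H : ℝ := (1 + 2 * C₀ * cJ.toReal) * N with hH
  have hA1 : 1 ≤ 1 + 2 * C₀ * cJ.toReal := by
    have : 0 ≤ 2 * C₀ * cJ.toReal := by positivity
    linarith
  have hH1 : 1 ≤ H := by nlinarith
  have hcount : ∀ S : Finset V, (∀ x ∈ S, x ∈ G) →
      (∀ x ∈ S, ∀ y ∈ S, x ≠ y → 1 ≤ dist x y) → (S.card : ℝ) ≤ N := by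
    intro S hS1 hS2
    refine (count hβ hC₀ hdec hb hM0 hM hgm hg1 ht S hS2 ?_).trans hN
    intro x hx
    rw [← htl]
    exact (hS1 x hx).le
  obtain ⟨S, hS1, hS2, hS3⟩ := exists_net hcount
  have hSN := hcount S hS1 hS2
  have hSD : S.card < D ^ K₀ := by
    have : (S.card : ℝ) < (D : ℝ) ^ K₀ := lt_of_le_of_lt hSN hND
    exact_mod_cast this
  set r : ℕ → ℝ := rad b H with hr
  have hr1 : ∀ k, 1 ≤ r k := fun k => one_le_rad hH1 k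
  obtain ⟨T, hT1, hT2, hT3⟩ := Vale.Agent.P122.H800.cover S K₀ D hD hSD r
    (by linarith [hr1 0]) (fun k => rad_succ_ge hb1 hH1 k)
  set Bk : ℕ → ℝ≥0∞ := fun k =>
    ENNReal.ofReal ((lam ^ 3)⁻¹ * (C * (cW.toReal * A + 1)) * (r k + 2) ^ ε)
      * ∫⁻ ξ, ‖g ξ‖ₑ ^ 2 ∂μ with hBk
  have hfam : ∀ k j, volume (G ∩ ⋃ c ∈ T k j, Metric.ball c (r k + 2)) ≤ Bk k := by
    intro k j
    have hD' : 0 < r (k + 1) / 4 := by linarith [hr1 (k + 1)]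
    refine family hA hA0 hβ hβ1 hC₀ hdec hK hC h (by linarith [hr1 k]) hD' (T k j)
      (fun c hc d hd hcd => (hT2 k j c hc d hd hcd).le) ?_ hgm hg1 hlam
    have h1 : r (k + 1) / 4 = (H * (r k + 2) ^ 6) ^ b := by
      rw [hr, rad]; ring
    have h2 : 1 ≤ (r k + 2) ^ 6 := one_le_pow₀ (by linarith [hr1 k])
    have h3 : 1 ≤ H * (r k + 2) ^ 6 := by nlinarith
    have hcard : ((T k j).card : ℝ) ≤ N :=
      (by exact_mod_cast Finset.card_le_card (hT1 k j) : ((T k j).card : ℝ) ≤ S.card).trans hSN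
    have hrk : 0 ≤ (r k + 2) ^ 6 := by linarith
    calc 2 * C₀ * cJ.toReal * (T k j).card * (r k + 2) ^ 6
        ≤ (1 + 2 * C₀ * cJ.toReal) * N * (r k + 2) ^ 6 := by
          gcongr
          linarith
      _ = (H * (r k + 2) ^ 6) ^ (1 : ℝ) := by rw [Real.rpow_one, hH]
      _ ≤ (H * (r k + 2) ^ 6) ^ ((b : ℝ) * β) := Real.rpow_le_rpow_of_exponent_le h3 hb
      _ = (r (k + 1) / 4) ^ β := by
          rw [h1, ← Real.rpow_natCast (H * (r k + 2) ^ 6) b, ← Real.rpow_mul (by linarith)]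
  have hcov : G ⊆ ⋃ k ∈ Finset.range (K₀ + 1), ⋃ j ∈ Finset.range D,
      (G ∩ ⋃ c ∈ T k j, Metric.ball c (r k + 2)) := by
    intro x hx
    obtain ⟨y, hy, hxy⟩ := hS3 x hx
    obtain ⟨k, hk, j, hj, z, hz, hyz⟩ := hT3 y hy
    simp only [Set.mem_iUnion, Finset.mem_range]
    refine ⟨k, by omega, j, hj, hx, ?_⟩
    simp only [Set.mem_iUnion]
    refine ⟨z, hz, ?_⟩
    rw [Metric.mem_ball]
    have := dist_triangle x y z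
    linarith
  have hmono : ∀ k ∈ Finset.range (K₀ + 1), Bk k ≤ Bk K₀ := by
    intro k hk
    have hk' : k ≤ K₀ := by have := Finset.mem_range.1 hk; omega
    have h1 : r k ≤ r K₀ := rad_mono hb1 hH1 hk'
    have h2 : 0 ≤ (lam ^ 3)⁻¹ * (C * (cW.toReal * A + 1)) := by positivity
    have h3 : 0 ≤ r k + 2 := by linarith [hr1 k]
    rw [hBk]
    simp only
    gcongr
  calc volume G ≤ ∑ k ∈ Finset.range (K₀ + 1), ∑ j ∈ Finset.range D,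
        volume (G ∩ ⋃ c ∈ T k j, Metric.ball c (r k + 2)) := by
        refine (measure_mono hcov).trans ((measure_biUnion_finset_le _ _).trans ?_)
        refine Finset.sum_le_sum fun k _ => ?_
        exact measure_biUnion_finset_le _ _
    _ ≤ ∑ k ∈ Finset.range (K₀ + 1), ∑ _j ∈ Finset.range D, Bk K₀ :=
        Finset.sum_le_sum fun k hk => Finset.sum_le_sum fun j _ =>
          (hfam k j).trans (hmono k hk)
    _ = ((K₀ + 1 : ℕ) : ℝ≥0∞) * ((D : ℝ≥0∞) * Bk K₀) := by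
        simp only [Finset.sum_const, Finset.card_range, nsmul_eq_mul]
    _ = _ := by
        rw [hBk]
        simp only
        rw [← mul_assoc, ← mul_assoc, ← ENNReal.ofReal_natCast, ← ENNReal.ofReal_natCast (n := D),
          ← ENNReal.ofReal_mul (by positivity), ← ENNReal.ofReal_mul (by positivity)]
        congr 2
        push_cast
        ring

lemma exists_D {C₁ δ t : ℝ} {L₀ K₀ : ℕ} (hC₁1 : 1 ≤ C₁) (hK₀1 : K₀ ≠ 0)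
    (hLK : (L₀ : ℝ) / K₀ ≤ δ) (ht1 : 1 ≤ t) :
    ∃ D : ℕ, 2 ≤ D ∧ (D : ℝ) ≤ (C₁ + 3) * t ^ δ ∧ C₁ * t ^ L₀ < (D : ℝ) ^ K₀ := by
  have hK₀0 : (0 : ℝ) < K₀ := by exact_mod_cast Nat.pos_of_ne_zero hK₀1
  have ht0 : 0 < t := by linarith
  obtain ⟨u, hu⟩ : ∃ u : ℝ, u = t ^ ((L₀ : ℝ) / K₀) := ⟨_, rfl⟩
  have hu1 : 1 ≤ u := by rw [hu]; exact Real.one_le_rpow ht1 (by positivity)
  have huK : u ^ K₀ = t ^ L₀ := by
    rw [hu, ← Real.rpow_natCast (t ^ ((L₀ : ℝ) / K₀)) K₀, ← Real.rpow_mul ht0.le,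
      div_mul_cancel₀ _ hK₀0.ne', Real.rpow_natCast]
  have huδ : u ≤ t ^ δ := by rw [hu]; exact Real.rpow_le_rpow_of_exponent_le ht1 hLK
  have hC : 0 < (C₁ + 1) * u := by positivity
  have h2 : 0 < ⌈(C₁ + 1) * u⌉₊ := Nat.ceil_pos.2 hC
  have hDge : (C₁ + 1) * u ≤ ((⌈(C₁ + 1) * u⌉₊ + 1 : ℕ) : ℝ) := by
    push_cast
    linarith [Nat.le_ceil ((C₁ + 1) * u)]
  have htL : 1 ≤ t ^ L₀ := one_le_pow₀ ht1
  refine ⟨⌈(C₁ + 1) * u⌉₊ + 1, by omega, ?_, ?_⟩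
  · have h1 := (Nat.ceil_lt_add_one hC.le).le
    push_cast
    calc (⌈(C₁ + 1) * u⌉₊ : ℝ) + 1 ≤ (C₁ + 1) * u + 1 + 1 := by linarith
      _ ≤ (C₁ + 3) * u := by linarith
      _ ≤ _ := by gcongr
  · calc C₁ * t ^ L₀ < (C₁ + 1) * t ^ L₀ := by nlinarith
      _ ≤ (C₁ + 1) ^ K₀ * t ^ L₀ := by
          gcongr
          exact le_self_pow₀ (by linarith) hK₀1
      _ = ((C₁ + 1) * u) ^ K₀ := by rw [mul_pow, huK]
      _ ≤ _ := by gcongr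

lemma rad_pow_le {b K₀ Lr L₀ : ℕ} {Cr A₁ C₁ ε δ t : ℝ}
    (hrad : ∀ H : ℝ, 1 ≤ H → rad b H K₀ ≤ Cr * H ^ Lr) (hCr : 0 ≤ Cr) (hA₁1 : 1 ≤ A₁)
    (hC₁1 : 1 ≤ C₁) (ht1 : 1 ≤ t) (hε0 : 0 < ε) (hεδ : (L₀ : ℝ) * Lr * ε ≤ δ) :
    (rad b (A₁ * (C₁ * t ^ L₀)) K₀ + 2) ^ ε ≤ (Cr * (A₁ * C₁) ^ Lr + 2) ^ ε * t ^ δ := by
  have ht0 : 0 < t := by linarith
  have htL : 1 ≤ t ^ L₀ := one_le_pow₀ ht1
  have hP0 : 0 < Cr * (A₁ * C₁) ^ Lr + 2 := by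
    have : 0 ≤ Cr * (A₁ * C₁) ^ Lr := by positivity
    linarith
  have hH1 : 1 ≤ A₁ * (C₁ * t ^ L₀) := by
    have : 1 ≤ C₁ * t ^ L₀ := by nlinarith
    nlinarith
  have h1 : rad b (A₁ * (C₁ * t ^ L₀)) K₀ + 2 ≤ (Cr * (A₁ * C₁) ^ Lr + 2) * t ^ (L₀ * Lr) := by
    have h2 : 1 ≤ t ^ (L₀ * Lr) := one_le_pow₀ ht1
    calc rad b (A₁ * (C₁ * t ^ L₀)) K₀ + 2
        ≤ Cr * (A₁ * (C₁ * t ^ L₀)) ^ Lr + 2 * t ^ (L₀ * Lr) := by
          linarith [hrad _ hH1]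
      _ = (Cr * (A₁ * C₁) ^ Lr + 2) * t ^ (L₀ * Lr) := by
          rw [← mul_assoc, mul_pow (A₁ * C₁), ← pow_mul]; ring
  have h0 : 0 ≤ rad b (A₁ * (C₁ * t ^ L₀)) K₀ + 2 := by
    linarith [one_le_rad (b := b) hH1 K₀]
  calc (rad b (A₁ * (C₁ * t ^ L₀)) K₀ + 2) ^ ε
      ≤ ((Cr * (A₁ * C₁) ^ Lr + 2) * t ^ (L₀ * Lr)) ^ ε := Real.rpow_le_rpow h0 h1 hε0.le
    _ = (Cr * (A₁ * C₁) ^ Lr + 2) ^ ε * t ^ ((L₀ : ℝ) * Lr * ε) := by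
        rw [Real.mul_rpow hP0.le (by positivity), ← Real.rpow_natCast t (L₀ * Lr),
          ← Real.rpow_mul ht0.le]
        push_cast
        rfl
    _ ≤ (Cr * (A₁ * C₁) ^ Lr + 2) ^ ε * t ^ δ := by
        have := Real.rpow_le_rpow_of_exponent_le ht1 hεδ
        gcongr

lemma t_pow {M lam δ q : ℝ} (hM0 : 0 < M) (hlam : 0 < lam) (hδ : δ + δ = q - 3) :
    (M / lam) ^ δ * (M / lam) ^ δ * (lam ^ 3)⁻¹ = M ^ (q - 3) * lam ^ (-q) := by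
  have ht0 : 0 < M / lam := by positivity
  rw [← Real.rpow_add ht0, hδ, Real.div_rpow hM0.le hlam.le, div_eq_mul_inv,
    ← Real.rpow_neg hlam.le, ← Real.rpow_natCast lam 3, ← Real.rpow_neg hlam.le, mul_assoc,
    ← Real.rpow_add hlam]
  congr 2
  push_cast
  ring

lemma fin_bound {k D C₁ B P3 l3 r3 T3 : ℝ} (hk : 0 ≤ k) (hB : 0 ≤ B) (hl3 : 0 ≤ l3)
    (hr3 : 0 ≤ r3) (hT3 : 0 ≤ T3) (hD0 : 0 ≤ D) (hC : 0 ≤ C₁ + 3) (hD : D ≤ (C₁ + 3) * T3)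
    (hr : r3 ≤ P3 * T3) :
    (k + 1) * D * (l3 * B * r3) ≤ (k + 1) * (C₁ + 3) * B * P3 * (T3 * T3 * l3) := by
  calc (k + 1) * D * (l3 * B * r3)
      ≤ (k + 1) * ((C₁ + 3) * T3) * (l3 * B * (P3 * T3)) := by
        gcongr
    _ = (k + 1) * (C₁ + 3) * B * P3 * (T3 * T3 * l3) := by ring

lemma rweak_core {μ : Measure V} [IsFiniteMeasure μ] {A β C₀ : ℝ} (hA : Growth μ A)
    (hA0 : 0 ≤ A) (hβ : 0 < β) (hβ1 : β ≤ 1) (hC₀ : 0 ≤ C₀)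
    (hdec : Decay μ β C₀) {K : ℕ} (hK : 6 ≤ K) (hloc : Loc μ K) : RWeak μ := by
  obtain ⟨b, hb⟩ := exists_nat_gt (1 / β)
  have hb0 : (0 : ℝ) < b := lt_trans (by positivity) hb
  have hb1 : 1 ≤ b := by
    have : 0 < b := by exact_mod_cast hb0
    omega
  have hbβ : 1 ≤ b * β := by
    rw [div_lt_iff₀ hβ] at hb
    exact hb.le
  intro q hq
  obtain ⟨δ, hδ⟩ : ∃ δ : ℝ, δ = (q - 3) / 2 := ⟨_, rfl⟩
  have hδ0 : 0 < δ := by rw [hδ]; linarith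
  obtain ⟨M, hM⟩ : ∃ M : ℝ, M = (μ Set.univ).toReal + 1 := ⟨_, rfl⟩
  have hM0 : 0 < M := by rw [hM]; positivity
  have hMμ : μ Set.univ ≤ ENNReal.ofReal M := by
    rw [hM]
    refine ENNReal.le_ofReal_iff_toReal_le (measure_ne_top _ _) (by positivity) |>.2 ?_
    linarith
  obtain ⟨L₀, hL₀⟩ : ∃ L₀ : ℕ, L₀ = 2 + 6 * b := ⟨_, rfl⟩
  obtain ⟨C₁, hC₁⟩ : ∃ C₁ : ℝ, C₁ = 54 * (1 + 2 * C₀ / M) ^ (3 * b) := ⟨_, rfl⟩
  have hC₁1 : 1 ≤ C₁ := by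
    have h1 : 1 ≤ 1 + 2 * C₀ / M := by
      have : 0 ≤ 2 * C₀ / M := by positivity
      linarith
    have h2 : 1 ≤ (1 + 2 * C₀ / M) ^ (3 * b) := one_le_pow₀ h1
    rw [hC₁]; linarith
  obtain ⟨K₀, hK₀⟩ := exists_nat_gt ((L₀ : ℝ) / δ)
  have hK₀0 : (0 : ℝ) < K₀ := lt_of_le_of_lt (by positivity) hK₀
  have hK₀1 : K₀ ≠ 0 := by
    intro h0
    rw [h0] at hK₀0
    simp at hK₀0
  have hLK : (L₀ : ℝ) / K₀ ≤ δ := by
    rw [div_le_iff₀ hK₀0]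
    rw [div_lt_iff₀ hδ0] at hK₀
    linarith
  obtain ⟨Cr, Lr, hCr, hrad⟩ := rad_le b K₀
  obtain ⟨ε, hε⟩ : ∃ ε : ℝ, ε = δ / ((L₀ : ℝ) * Lr + 1) := ⟨_, rfl⟩
  have hε0 : 0 < ε := by rw [hε]; positivity
  have hεδ : (L₀ : ℝ) * Lr * ε ≤ δ := by
    rw [hε, mul_div_assoc', div_le_iff₀ (by positivity)]
    nlinarith
  obtain ⟨Cε, hCε, hl⟩ := hloc ε hε0
  have hcJ : 0 ≤ cJ.toReal := ENNReal.toReal_nonneg
  have hcW : 0 ≤ cW.toReal := ENNReal.toReal_nonneg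
  obtain ⟨A₁, hA₁⟩ : ∃ A₁ : ℝ, A₁ = 1 + 2 * C₀ * cJ.toReal := ⟨_, rfl⟩
  have hA₁1 : 1 ≤ A₁ := by
    have : 0 ≤ 2 * C₀ * cJ.toReal := by positivity
    rw [hA₁]; linarith
  obtain ⟨P, hP⟩ : ∃ P : ℝ, P = Cr * (A₁ * C₁) ^ Lr + 2 := ⟨_, rfl⟩
  have hP0 : 0 < P := by
    have : 0 ≤ Cr * (A₁ * C₁) ^ Lr := by positivity
    rw [hP]; linarith
  obtain ⟨B, hB⟩ : ∃ B : ℝ, B = Cε * (cW.toReal * A + 1) := ⟨_, rfl⟩
  have hB0 : 0 ≤ B := by rw [hB]; positivity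
  refine ⟨Real.toNNReal (((K₀ : ℝ) + 1) * (C₁ + 3) * B * P ^ ε * M ^ (q - 3)), ?_⟩
  intro g Ω hgm hΩ hg1 hgΩ lam hlam
  have hm2 : ∫⁻ ξ, ‖g ξ‖ₑ ^ 2 ∂μ ≤ μ Ω := by
    rw [← lintegral_indicator_one hΩ]
    refine lintegral_mono fun ξ => ?_
    by_cases hξ : ξ ∈ Ω
    · rw [Set.indicator_of_mem hξ]
      have : ‖g ξ‖ₑ ≤ 1 := by
        rw [← ofReal_norm]
        exact ENNReal.ofReal_le_one.2 (hg1 ξ)
      exact pow_le_one₀ zero_le this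
    · rw [hgΩ ξ hξ]; simp
  rcases le_or_gt M lam with hlM | hlM
  · have he : {x | lam < ‖Ext μ g x‖} = ∅ := by
      rw [Set.eq_empty_iff_forall_notMem]
      intro x hx
      have h1 : ‖Ext μ g x‖ ≤ M := by
        refine (norm_Ext_le _ _ _).trans ?_
        calc ∫ ξ, ‖g ξ‖ ∂μ ≤ ∫ _ξ, (1 : ℝ) ∂μ := by
              refine integral_mono_of_nonneg (Filter.Eventually.of_forall fun _ => norm_nonneg _)
                (integrable_const _) (Filter.Eventually.of_forall hg1)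
          _ = (μ Set.univ).toReal := by
              simp only [integral_const, smul_eq_mul, mul_one]; rfl
          _ ≤ M := by rw [hM]; linarith
      have h2 : lam < ‖Ext μ g x‖ := hx
      linarith
    rw [he]; simp
  · set t : ℝ := M / lam with ht
    have ht1 : 1 ≤ t := (one_le_div hlam).2 hlM.le
    have ht0 : 0 < t := by linarith
    have htl : lam = M / t := by rw [ht]; field_simp
    obtain ⟨D, hD2, hDle, hND⟩ := exists_D hC₁1 hK₀1 hLK ht1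
    have htL : 1 ≤ t ^ L₀ := one_le_pow₀ ht1
    have hN1 : 1 ≤ C₁ * t ^ L₀ := one_le_mul_of_one_le_of_one_le hC₁1 htL
    have hlev := level_bound hA hA0 hβ hβ1 hC₀ hdec hK hCε hε0 hl hb1 hbβ hM0 hMμ hgm hg1
      hlam ht1 htl (N := C₁ * t ^ L₀) hN1 (by rw [hC₁, hL₀]) hD2 hND
    refine hlev.trans ?_
    rw [← hA₁, ← hB]
    have hradle := rad_pow_le hrad hCr hA₁1 hC₁1 ht1 hε0 hεδ
    rw [← hP] at hradle
    have hH1 : 1 ≤ A₁ * (C₁ * t ^ L₀) := one_le_mul_of_one_le_of_one_le hA₁1 hN1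
    have hr0 : 0 ≤ rad b (A₁ * (C₁ * t ^ L₀)) K₀ + 2 :=
      le_trans zero_le_one ((one_le_rad (b := b) hH1 K₀).trans (le_add_of_nonneg_right zero_le_two))
    have hC3 : 0 ≤ C₁ + 3 := add_nonneg (zero_le_one.trans hC₁1) (by norm_num)
    have hfin := fin_bound (k := (K₀ : ℝ)) hK₀0.le hB0 (inv_nonneg.2 (pow_nonneg hlam.le 3))
      (Real.rpow_nonneg hr0 ε) (Real.rpow_nonneg ht0.le δ) (Nat.cast_nonneg D) hC3 hDle hradle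
    rw [ht, t_pow hM0 hlam (by rw [hδ]; ring : δ + δ = q - 3), ← ht] at hfin
    refine (mul_le_mul' (ENNReal.ofReal_le_ofReal hfin) hm2).trans (le_of_eq ?_)
    rw [← mul_assoc, ENNReal.ofReal_mul (by positivity)]
    rfl

/-- The local estimate, growth and decay imply the restricted weak type bounds. -/
theorem rweak {μ : Measure V} [IsFiniteMeasure μ] {A β C₀ : ℝ} (hA : Growth μ A) (hβ : 0 < β)
    (hdec : Decay μ β C₀) {K : ℕ} (hK : 6 ≤ K) (hloc : Loc μ K) : RWeak μ := by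
  have hC₀ : 0 ≤ C₀ := by
    have := (norm_nonneg _).trans (hdec 0)
    simpa using this
  obtain ⟨A', hA', hA0⟩ : ∃ A' : ℝ, Growth μ A' ∧ 0 ≤ A' :=
    ⟨max A 0, fun ξ r hr => (hA ξ r hr).trans (ENNReal.ofReal_le_ofReal (by
      have : 0 ≤ r ^ 2 := by positivity
      gcongr
      exact le_max_left _ _)), le_max_right _ _⟩
  obtain ⟨β', hβ'0, hβ'1, hdec'⟩ : ∃ β' : ℝ, 0 < β' ∧ β' ≤ 1 ∧ Decay μ β' C₀ := by
    refine ⟨min β 1, lt_min hβ one_pos, min_le_right _ _, fun x => (hdec x).trans ?_⟩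
    gcongr ?_ * ?_
    refine Real.rpow_le_rpow_of_exponent_le ?_ ?_
    · linarith [norm_nonneg x]
    · linarith [min_le_left β 1]
  exact rweak_core hA' hA0 hβ'0 hβ'1 hC₀ hdec' hK hloc

end Vale.Agent.P122.EPS
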