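import Vale.Agent.P122.EPS895.Strong
import Vale.Agent.P122.FI.Asm

/-!
# Question 1 from the local estimate
-/

namespace Vale.Agent.P122.EPS

/-- The abstract epsilon removal. -/
theorem epsRem {K : ℕ} (hK : 6 ≤ K) : Vale.Agent.P122.H567.EpsRem K :=
  fun _ _ _ _ _ hA hβ hdec hloc => main hA hβ hdec hK hloc

/-- Question 1 of the problem from the local estimate. -/
theorem question1_of_LOC2 {K : ℕ} (hK : 6 ≤ K) (hL : Vale.Agent.P122.FI.LOC2 K) :
    Vale.Agent.P122.FI.Question1 :=
  Vale.Agent.P122.FI.question1_of_loc (epsRem hK) hL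

end Vale.Agent.P122.EPS
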