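import Vale.Agent.P122.EPS895.Weighted

/-!
# Orthogonality over sparse families of balls
-/

namespace Vale.Agent.P122.EPS

open MeasureTheory
open scoped ENNReal NNReal ComplexConjugate

/-- `∫ (1 + |x|)^{-4}`. -/
noncomputable def cJ : ℝ≥0∞ := ∫⁻ x : V, ENNReal.ofReal ((1 + ‖x‖) ^ (-(4 : ℝ)))

lemma cJ_ne_top : cJ ≠ ⊤ := by
  refine (finite_integral_one_add_norm (E := V) (μ := volume) (r := 4) ?_).ne
  simp
  norm_num

lemma wt_mul_sq_le {K : ℕ} (hK : 6 ≤ K) {R : ℝ} (hR : 1 ≤ R) (z : V) :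
    (1 + ‖z‖ / R) ^ 2 * wt K R z ≤ R ^ 4 * (1 + ‖z‖) ^ (-(4 : ℝ)) := by
  have hR0 : 0 < R := by linarith
  have h0 : 0 ≤ ‖z‖ / R := by positivity
  have h1 : (1 : ℝ) ≤ 1 + ‖z‖ / R := by linarith
  have h2 : (1 + ‖z‖ / R) ^ 2 * wt K R z ≤ ((1 + ‖z‖ / R) ^ 4)⁻¹ := by
    unfold wt
    rw [← div_eq_mul_inv, div_le_iff₀ (by positivity), inv_mul_eq_div, le_div_iff₀ (by positivity),
      ← pow_add]
    exact pow_le_pow_right₀ h1 (by omega)
  refine h2.trans ?_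
  rw [Real.rpow_neg (by positivity)]
  have h3 : (1 + ‖z‖) ^ (4 : ℝ) = (1 + ‖z‖) ^ 4 := by
    rw [← Real.rpow_natCast]; norm_num
  rw [h3, ← div_eq_mul_inv, le_div_iff₀ (by positivity), inv_mul_eq_div,
    div_le_iff₀ (by positivity), ← mul_pow]
  have h4 : (1 : ℝ) + ‖z‖ ≤ R * (1 + ‖z‖ / R) := by
    rw [mul_add, mul_one, mul_div_cancel₀ _ hR0.ne']
    linarith
  gcongr

lemma integrable_wt {K : ℕ} (hK : 6 ≤ K) {R : ℝ} (hR : 1 ≤ R) (c : V) :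
    Integrable (fun x : V => wt K R (x - c)) := by
  have hR0 : 0 < R := by linarith
  have h : Integrable (fun x : V => wt K R x) := by
    refine Integrable.mono' (g := fun x : V => R ^ 4 * (1 + ‖x‖) ^ (-(4 : ℝ))) ?_
      (continuous_wt K hR0).aestronglyMeasurable (Filter.Eventually.of_forall fun x => ?_)
    · refine Integrable.const_mul ?_ _
      refine integrable_one_add_norm (E := V) ?_
      simp
      norm_num
    · rw [Real.norm_of_nonneg (wt_nonneg K hR0 x)]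
      refine le_trans ?_ (wt_mul_sq_le hK hR x)
      have h0 : 0 ≤ ‖x‖ / R := by positivity
      have h1 : (1 : ℝ) ≤ (1 + ‖x‖ / R) ^ 2 := by nlinarith
      calc wt K R x = 1 * wt K R x := by ring
        _ ≤ _ := by gcongr; exact wt_nonneg K hR0 x
  exact h.comp_sub_right c

lemma peetre {R : ℝ} (hR : 1 ≤ R) {D β : ℝ} (hD : 0 < D) (hβ : 0 < β) (hβ1 : β ≤ 1)
    {c d : V} (hcd : D ≤ dist c d) (x y : V) :
    (1 + ‖x - y‖) ^ (-β) ≤ D ^ (-β) * R ^ 2 * (1 + ‖y - c‖ / R) * (1 + ‖x - d‖ / R) := by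
  have hR0 : 0 < R := by linarith
  set P : ℝ := (R * (1 + ‖y - c‖ / R)) * (R * (1 + ‖x - d‖ / R)) with hP
  have ha : 0 ≤ ‖x - y‖ := norm_nonneg _
  have hb : 0 ≤ ‖y - c‖ := norm_nonneg _
  have he : 0 ≤ ‖x - d‖ := norm_nonneg _
  have h1 : R * (1 + ‖y - c‖ / R) = R + ‖y - c‖ := by field_simp
  have h2 : R * (1 + ‖x - d‖ / R) = R + ‖x - d‖ := by field_simp
  have hP1 : 1 ≤ P := by
    rw [hP, h1, h2]
    nlinarith
  have htri : dist c d ≤ ‖y - c‖ + ‖x - y‖ + ‖x - d‖ := by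
    calc dist c d ≤ dist c y + dist y x + dist x d := dist_triangle4 _ _ _ _
      _ = _ := by
        rw [dist_comm c y, dist_comm y x, dist_eq_norm, dist_eq_norm, dist_eq_norm]
  have hDP : D ≤ (1 + ‖x - y‖) * P := by
    rw [hP, h1, h2]
    have h5 : 1 + ‖y - c‖ + ‖x - d‖ ≤ (R + ‖y - c‖) * (R + ‖x - d‖) := by nlinarith
    have h6 : (1 + ‖x - y‖) * (1 + ‖y - c‖ + ‖x - d‖)
        ≤ (1 + ‖x - y‖) * ((R + ‖y - c‖) * (R + ‖x - d‖)) := by gcongr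
    nlinarith [mul_nonneg ha hb, mul_nonneg ha he]
  have h7 : (1 + ‖x - y‖)⁻¹ ≤ P / D := by
    rw [inv_le_iff_one_le_mul₀ (by positivity), ← mul_div_right_comm, one_le_div hD]
    linarith [mul_comm P (1 + ‖x - y‖)]
  calc (1 + ‖x - y‖) ^ (-β) = ((1 + ‖x - y‖)⁻¹) ^ β := by
        rw [Real.rpow_neg (by positivity), Real.inv_rpow (by positivity)]
    _ ≤ (P / D) ^ β := Real.rpow_le_rpow (by positivity) h7 hβ.le
    _ = P ^ β * D ^ (-β) := by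
        rw [Real.div_rpow (by positivity) hD.le, Real.rpow_neg hD.le, div_eq_mul_inv]
    _ ≤ P ^ (1 : ℝ) * D ^ (-β) := by
        gcongr
    _ = _ := by
        rw [Real.rpow_one, hP]
        ring

lemma off_diag {μ : Measure V} [IsFiniteMeasure μ] {β C₀ : ℝ} (hβ : 0 < β) (hβ1 : β ≤ 1)
    (hC₀ : 0 ≤ C₀) (hdec : Decay μ β C₀) {K : ℕ} (hK : 6 ≤ K) {R : ℝ} (hR : 1 ≤ R) {D : ℝ}
    (hD : 0 < D) {c d : V} (hcd : D ≤ dist c d) {E : V → ℂ} (hE : Continuous E) {M : ℝ}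
    (hM : ∀ x, ‖E x‖ ≤ M) :
    ∫⁻ x, ‖Ext μ (Fh (fun x => E x * ((wt K R (x - c) : ℝ) : ℂ))) x‖ₑ * ‖E x‖ₑ
        * ENNReal.ofReal (wt K R (x - d))
      ≤ ENNReal.ofReal (C₀ * (D ^ (-β) * R ^ 2)) *
        ((∫⁻ x, ‖E x‖ₑ * ENNReal.ofReal (1 + ‖x - c‖ / R) * ENNReal.ofReal (wt K R (x - c))) *
        (∫⁻ x, ‖E x‖ₑ * ENNReal.ofReal (1 + ‖x - d‖ / R) * ENNReal.ofReal (wt K R (x - d)))) := by
  have hR0 : 0 < R := by linarith
  have hmw : ∀ c : V, Measurable fun x => ENNReal.ofReal (wt K R (x - c)) := fun c =>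
    ((continuous_wt K hR0).comp (by fun_prop)).measurable.ennreal_ofReal
  have hEm : Measurable E := hE.measurable
  have hhi : Integrable (fun x => E x * ((wt K R (x - c) : ℝ) : ℂ)) :=
    (integrable_wt hK hR c).ofReal.bdd_mul hE.aestronglyMeasurable
      (Filter.Eventually.of_forall hM)
  set bc : ℝ≥0∞ := ∫⁻ x, ‖E x‖ₑ * ENNReal.ofReal (1 + ‖x - c‖ / R)
    * ENNReal.ofReal (wt K R (x - c)) with hbc
  have hpt : ∀ x, ‖Ext μ (Fh (fun x => E x * ((wt K R (x - c) : ℝ) : ℂ))) x‖ₑ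
      ≤ ENNReal.ofReal (C₀ * (D ^ (-β) * R ^ 2)) * ENNReal.ofReal (1 + ‖x - d‖ / R) * bc := by
    intro x
    rw [Ext_Fh hhi]
    refine (enorm_integral_le_lintegral_enorm _).trans ?_
    rw [hbc, ← lintegral_const_mul _ (by
      exact (hEm.enorm.mul (by fun_prop)).mul (hmw c))]
    refine lintegral_mono fun y => ?_
    rw [enorm_mul, enorm_mul]
    have h1 : ‖((wt K R (y - c) : ℝ) : ℂ)‖ₑ = ENNReal.ofReal (wt K R (y - c)) := by
      rw [← ofReal_norm, Complex.norm_real, Real.norm_of_nonneg (wt_nonneg K hR0 _)]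
    have h2 : ‖Ext μ (fun _ => 1) (x - y)‖ₑ ≤ ENNReal.ofReal (C₀ * (D ^ (-β) * R ^ 2)) *
        ENNReal.ofReal (1 + ‖x - d‖ / R) * ENNReal.ofReal (1 + ‖y - c‖ / R) := by
      rw [← ENNReal.ofReal_mul (by positivity), ← ENNReal.ofReal_mul (by positivity),
        ← ofReal_norm]
      apply ENNReal.ofReal_le_ofReal
      refine (hdec (x - y)).trans ?_
      calc C₀ * (1 + ‖x - y‖) ^ (-β)
          ≤ C₀ * (D ^ (-β) * R ^ 2 * (1 + ‖y - c‖ / R) * (1 + ‖x - d‖ / R)) := by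
            gcongr
            exact peetre hR hD hβ hβ1 hcd x y
        _ = _ := by ring
    rw [h1]
    calc ‖E y‖ₑ * ENNReal.ofReal (wt K R (y - c)) * ‖Ext μ (fun _ => 1) (x - y)‖ₑ
        ≤ ‖E y‖ₑ * ENNReal.ofReal (wt K R (y - c)) * (ENNReal.ofReal (C₀ * (D ^ (-β) * R ^ 2)) *
        ENNReal.ofReal (1 + ‖x - d‖ / R) * ENNReal.ofReal (1 + ‖y - c‖ / R)) := by gcongr
      _ = _ := by ring
  calc ∫⁻ x, ‖Ext μ (Fh (fun x => E x * ((wt K R (x - c) : ℝ) : ℂ))) x‖ₑ * ‖E x‖ₑ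
        * ENNReal.ofReal (wt K R (x - d))
      ≤ ∫⁻ x, (ENNReal.ofReal (C₀ * (D ^ (-β) * R ^ 2)) * bc) *
        (‖E x‖ₑ * ENNReal.ofReal (1 + ‖x - d‖ / R) * ENNReal.ofReal (wt K R (x - d))) := by
        refine lintegral_mono fun x => ?_
        calc _ ≤ (ENNReal.ofReal (C₀ * (D ^ (-β) * R ^ 2)) * ENNReal.ofReal (1 + ‖x - d‖ / R)
              * bc) * ‖E x‖ₑ * ENNReal.ofReal (wt K R (x - d)) := by
              gcongr
              exact hpt x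
          _ = _ := by ring
    _ = _ := by
        rw [lintegral_const_mul _ (by exact (hEm.enorm.mul (by fun_prop)).mul (hmw d))]
        ring

lemma lint_sum {ν : Measure V} (T : Finset V) (f : V → V → ℝ≥0∞) (hf : ∀ c, Measurable (f c)) :
    ∑ c ∈ T, ∫⁻ x, f c x ∂ν = ∫⁻ x, ∑ c ∈ T, f c x ∂ν :=
  (lintegral_finsetSum _ fun c _ => hf c).symm

/-- **Orthogonality over sparse families.** -/
theorem sparse {μ : Measure V} [IsFiniteMeasure μ] {A β C₀ : ℝ} (hA : Growth μ A)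
    (hβ : 0 < β) (hβ1 : β ≤ 1) (hC₀ : 0 ≤ C₀) (hdec : Decay μ β C₀) {K : ℕ} (hK : 6 ≤ K)
    {R : ℝ} (hR : 1 ≤ R) {D : ℝ} (hD : 0 < D) (T : Finset V)
    (hT : ∀ c ∈ T, ∀ d ∈ T, c ≠ d → D ≤ dist c d)
    (hsep : 2 * C₀ * cJ.toReal * T.card * R ^ 6 ≤ D ^ β) {g : V → ℂ} (hgm : Measurable g)
    (hg1 : ∀ ξ, ‖g ξ‖ ≤ 1) :
    ∑ c ∈ T, ∫⁻ x, ‖Ext μ g x‖ₑ ^ 2 * ENNReal.ofReal (wt K R (x - c))
      ≤ (cW * ENNReal.ofReal (A * R) + 1) * ∫⁻ ξ, ‖g ξ‖ₑ ^ 2 ∂μ := by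
  classical
  have hR0 : 0 < R := by linarith
  have hgi : Integrable g μ :=
    Integrable.of_bound hgm.aestronglyMeasurable 1 (Filter.Eventually.of_forall hg1)
  set E : V → ℂ := Ext μ g with hEdef
  have hE : Continuous E := continuous_Ext hgi
  set M : ℝ := ∫ ξ, ‖g ξ‖ ∂μ with hMdef
  have hM : ∀ x, ‖E x‖ ≤ M := fun x => norm_Ext_le μ g x
  have hEm : Measurable E := hE.measurable
  set w : V → V → ℝ := fun c x => wt K R (x - c) with hw
  have hwc : ∀ c, Continuous (w c) := fun c => (continuous_wt K hR0).comp (by fun_prop)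
  have hw0 : ∀ c x, 0 ≤ w c x := fun c x => wt_nonneg K hR0 _
  have hwi : ∀ c, Integrable (w c) := fun c => integrable_wt hK hR c
  set W : V → ℝ := fun x => ∑ c ∈ T, w c x with hW
  have hWc : Continuous W := by
    rw [hW]; exact continuous_finsetSum _ fun c _ => hwc c
  have hW0 : ∀ x, 0 ≤ W x := fun x => Finset.sum_nonneg fun c _ => hw0 c x
  have hWi : Integrable W := integrable_finsetSum _ fun c _ => hwi c
  have hHi : ∀ c, Integrable (fun x => E x * ((w c x : ℝ) : ℂ)) := fun c =>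
    (hwi c).ofReal.bdd_mul hE.aestronglyMeasurable (Filter.Eventually.of_forall hM)
  have hHWi : Integrable (fun x => E x * ((W x : ℝ) : ℂ)) :=
    hWi.ofReal.bdd_mul hE.aestronglyMeasurable (Filter.Eventually.of_forall hM)
  set G : V → V → ℂ := fun c => Fh (fun x => E x * ((w c x : ℝ) : ℂ)) with hG
  have hGi : ∀ c, Integrable (G c) μ := fun c =>
    Integrable.of_bound (continuous_Fh (hHi c)).aestronglyMeasurable _
      (Filter.Eventually.of_forall fun ξ => norm_Fh_le _ ξ)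
  have hGsum : Fh (fun x => E x * ((W x : ℝ) : ℂ)) = fun ξ => ∑ c ∈ T, G c ξ := by
    funext ξ
    rw [hG]
    unfold Fh
    rw [← integral_finsetSum]
    · congr 1; funext x
      rw [hW]
      push_cast
      rw [Finset.mul_sum, Finset.sum_mul]
    · intro c _
      exact (hHi c).mul_bdd (c := 1) ((continuous_ch_left ξ).comp continuous_neg).aestronglyMeasurable
        (Filter.Eventually.of_forall fun x => by simp)
  have hEsum : ∀ x, Ext μ (Fh (fun x => E x * ((W x : ℝ) : ℂ))) x = ∑ c ∈ T, Ext μ (G c) x := by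
    intro x
    rw [hGsum]
    unfold Ext
    rw [← integral_finsetSum]
    · congr 1; funext ξ
      rw [Finset.sum_mul]
    · intro c _
      exact (hGi c).mul_bdd (c := 1) (continuous_ch_right x).aestronglyMeasurable
        (Filter.Eventually.of_forall fun x => by simp)
  -- the quantities
  set B : ℝ≥0∞ := cW * ENNReal.ofReal (A * R) with hB
  set a : V → ℝ≥0∞ := fun c => ∫⁻ x, ‖E x‖ₑ ^ 2 * ENNReal.ofReal (w c x) with ha
  set b : V → ℝ≥0∞ := fun c => ∫⁻ x, ‖E x‖ₑ * ENNReal.ofReal (1 + ‖x - c‖ / R)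
    * ENNReal.ofReal (w c x) with hb
  set A2 : ℝ≥0∞ := ∑ c ∈ T, a c with hA2
  set X : ℝ≥0∞ := ∫⁻ ξ, ‖Fh (fun x => E x * ((W x : ℝ) : ℂ)) ξ‖ₑ ^ 2 ∂μ with hX
  set J : ℝ≥0∞ := ENNReal.ofReal (R ^ 4) * cJ with hJ
  set θ : ℝ≥0∞ := ENNReal.ofReal (C₀ * (D ^ (-β) * R ^ 2)) with hθ
  have hmw : ∀ c : V, Measurable fun x => ENNReal.ofReal (w c x) := fun c =>
    (hwc c).measurable.ennreal_ofReal
  have hA2W : A2 = ∫⁻ x, ‖E x‖ₑ ^ 2 * ENNReal.ofReal (W x) := by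
    have h1 := lint_sum (ν := volume) T (fun c x => ‖E x‖ₑ ^ 2 * ENNReal.ofReal (w c x))
      (fun c => (hEm.enorm.pow_const 2).mul (hmw c))
    rw [hA2, ha]
    refine h1.trans ?_
    congr 1; funext x
    rw [← Finset.mul_sum, hW, ENNReal.ofReal_sum_of_nonneg fun c _ => hw0 c x]
  have hB' : ∀ c, ∀ g : V → ℂ, Measurable g → Integrable g μ →
      ∫⁻ x, ‖Ext μ g x‖ₑ ^ 2 * ENNReal.ofReal (w c x) ≤ B * ∫⁻ ξ, ‖g ξ‖ₑ ^ 2 ∂μ :=
    fun c g hg hg' => local_wt hA (by omega) hR0 c hg hg'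
  -- the bound of `b`
  have hbb : ∀ c, b c ^ 2 ≤ J * a c := by
    intro c
    calc b c ^ 2 ≤ (∫⁻ x, ‖E x‖ₑ ^ 2 * ENNReal.ofReal (w c x)) *
          ∫⁻ x, ENNReal.ofReal (1 + ‖x - c‖ / R) ^ 2 * ENNReal.ofReal (w c x) :=
          cs_lint hEm.enorm (by fun_prop) (hmw c)
      _ ≤ a c * J := by
          gcongr
          calc ∫⁻ x, ENNReal.ofReal (1 + ‖x - c‖ / R) ^ 2 * ENNReal.ofReal (w c x)
              ≤ ∫⁻ x, (fun z : V => ENNReal.ofReal (R ^ 4) *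
                ENNReal.ofReal ((1 + ‖z‖) ^ (-(4 : ℝ)))) (x - c) := by
                refine lintegral_mono fun x => ?_
                simp only
                rw [← ENNReal.ofReal_pow (by positivity), ← ENNReal.ofReal_mul (by positivity),
                  ← ENNReal.ofReal_mul (by positivity)]
                exact ENNReal.ofReal_le_ofReal (wt_mul_sq_le hK hR (x - c))
            _ = ∫⁻ z : V, ENNReal.ofReal (R ^ 4) *
                ENNReal.ofReal ((1 + ‖z‖) ^ (-(4 : ℝ))) :=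
                lintegral_sub_right_eq_self (μ := (volume : Measure V))
                  (fun z : V => ENNReal.ofReal (R ^ 4) *
                    ENNReal.ofReal ((1 + ‖z‖) ^ (-(4 : ℝ)))) c
            _ = J := by
                rw [lintegral_const_mul _ (by fun_prop), hJ, cJ]
      _ = J * a c := mul_comm _ _
  -- first bound
  have hmG : ∀ c, Measurable fun x => ‖Ext μ (G c) x‖ₑ := fun c =>
    (continuous_Ext (hGi c)).measurable.enorm
  have h2 : X ≤ ∑ c ∈ T, ∑ d ∈ T,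
      ∫⁻ x, ‖Ext μ (G c) x‖ₑ * ‖E x‖ₑ * ENNReal.ofReal (w d x) := by
    refine (Fh_sq_le (μ := μ) hE hM hW0 hWi).1.trans ?_
    have hms : ∀ c d, Measurable fun x => ‖Ext μ (G c) x‖ₑ * ‖E x‖ₑ * ENNReal.ofReal (w d x) :=
      fun c d => ((hmG c).mul hEm.enorm).mul (hmw d)
    have e1 : ∑ c ∈ T, ∑ d ∈ T, ∫⁻ x, ‖Ext μ (G c) x‖ₑ * ‖E x‖ₑ * ENNReal.ofReal (w d x)
        = ∫⁻ x, ∑ c ∈ T, ∑ d ∈ T, ‖Ext μ (G c) x‖ₑ * ‖E x‖ₑ * ENNReal.ofReal (w d x) := by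
      rw [← lint_sum T (fun c x => ∑ d ∈ T, ‖Ext μ (G c) x‖ₑ * ‖E x‖ₑ
        * ENNReal.ofReal (w d x)) (fun c => Finset.measurable_sum _ fun d _ => hms c d)]
      refine Finset.sum_congr rfl fun c _ => ?_
      exact lint_sum T (fun d x => ‖Ext μ (G c) x‖ₑ * ‖E x‖ₑ * ENNReal.ofReal (w d x))
        (fun d => hms c d)
    rw [e1]
    refine lintegral_mono fun x => ?_
    rw [hEsum x]
    calc ‖∑ c ∈ T, Ext μ (G c) x‖ₑ * ‖E x‖ₑ * ENNReal.ofReal (W x)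
        ≤ (∑ c ∈ T, ‖Ext μ (G c) x‖ₑ) * ‖E x‖ₑ * ENNReal.ofReal (W x) := by
          gcongr
          exact enorm_sum_le _ _
      _ = _ := by
          rw [hW, ENNReal.ofReal_sum_of_nonneg fun c _ => hw0 c x, Finset.sum_mul,
            Finset.sum_mul]
          refine Finset.sum_congr rfl fun c _ => ?_
          rw [Finset.mul_sum]
  have hdiag : ∀ c, ∫⁻ x, ‖Ext μ (G c) x‖ₑ * ‖E x‖ₑ * ENNReal.ofReal (w c x) ≤ B * a c := by
    intro c
    have h3 : (∫⁻ x, ‖Ext μ (G c) x‖ₑ * ‖E x‖ₑ * ENNReal.ofReal (w c x)) ^ 2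
        ≤ (B * a c) ^ 2 := by
      calc _ ≤ (∫⁻ x, ‖Ext μ (G c) x‖ₑ ^ 2 * ENNReal.ofReal (w c x)) *
            ∫⁻ x, ‖E x‖ₑ ^ 2 * ENNReal.ofReal (w c x) :=
            cs_lint (hmG c) hEm.enorm (hmw c)
        _ ≤ (B * ∫⁻ ξ, ‖G c ξ‖ₑ ^ 2 ∂μ) * a c := by
            gcongr
            exact hB' c _ (continuous_Fh (hHi c)).measurable (hGi c)
        _ ≤ (B * (B * a c)) * a c := by
            gcongr
            exact dual_l2 hE hM (hw0 c) (hwc c) (hwi c) (hB' c)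
        _ = _ := by ring
    exact (ENNReal.pow_le_pow_left_iff two_ne_zero).1 h3
  have hoff : ∀ c ∈ T, ∀ d ∈ T, c ≠ d →
      ∫⁻ x, ‖Ext μ (G c) x‖ₑ * ‖E x‖ₑ * ENNReal.ofReal (w d x) ≤ θ * (b c * b d) := by
    intro c hc d hd hcd
    exact off_diag hβ hβ1 hC₀ hdec hK hR hD (hT c hc d hd hcd) hE hM
  have hbsq : ∀ u v : ℝ≥0∞, u * v ≤ u ^ 2 + v ^ 2 := by
    intro u v
    rcases le_total u v with h | h
    · calc u * v ≤ v * v := by gcongr
        _ = v ^ 2 := by ring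
        _ ≤ _ := le_add_self
    · calc u * v ≤ u * u := by gcongr
        _ = u ^ 2 := by ring
        _ ≤ _ := le_self_add
  have hcd : ∀ c ∈ T, ∀ d ∈ T,
      ∫⁻ x, ‖Ext μ (G c) x‖ₑ * ‖E x‖ₑ * ENNReal.ofReal (w d x)
        ≤ (if c = d then B * a c else 0) + (θ * b c ^ 2 + θ * b d ^ 2) := by
    intro c hc d hd
    by_cases h : c = d
    · subst h
      rw [if_pos rfl]
      exact (hdiag c).trans le_self_add
    · rw [if_neg h, zero_add, ← mul_add]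
      refine (hoff c hc d hd h).trans ?_
      gcongr
      exact hbsq _ _
  have hcond : 2 * (T.card : ℝ≥0∞) * (θ * J) ≤ 1 := by
    obtain ⟨q, hq, hq0⟩ : ∃ q : ℝ, q = cJ.toReal ∧ 0 ≤ q := ⟨_, rfl, ENNReal.toReal_nonneg⟩
    have h4 : cJ = ENNReal.ofReal q := by rw [hq, ENNReal.ofReal_toReal cJ_ne_top]
    have h5 : (T.card : ℝ≥0∞) = ENNReal.ofReal (T.card : ℝ) := by
      rw [ENNReal.ofReal_natCast]
    have h6 : (2 : ℝ≥0∞) = ENNReal.ofReal 2 := by norm_num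
    rw [← hq] at hsep
    have hθ0 : 0 ≤ C₀ * (D ^ (-β) * R ^ 2) := by positivity
    have hR40 : 0 ≤ R ^ 4 := by positivity
    have e9 : 2 * (T.card : ℝ≥0∞) * (θ * J)
        = ENNReal.ofReal (2 * (T.card : ℝ) * (C₀ * (D ^ (-β) * R ^ 2) * (R ^ 4 * q))) := by
      rw [hJ, h4, hθ, h5, h6]
      rw [ENNReal.ofReal_mul (p := 2 * (T.card : ℝ)) (mul_nonneg zero_le_two (Nat.cast_nonneg _)),
        ENNReal.ofReal_mul (p := (2 : ℝ)) zero_le_two,
        ENNReal.ofReal_mul (p := C₀ * (D ^ (-β) * R ^ 2)) hθ0, ENNReal.ofReal_mul (p := R ^ 4) hR40]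
    rw [e9, ← ENNReal.ofReal_one]
    apply ENNReal.ofReal_le_ofReal
    have h7 : D ^ (-β) * D ^ β = 1 := by
      rw [← Real.rpow_add hD]; simp
    calc 2 * (T.card : ℝ) * (C₀ * (D ^ (-β) * R ^ 2) * (R ^ 4 * q))
        = D ^ (-β) * (2 * C₀ * q * T.card * R ^ 6) := by ring
      _ ≤ D ^ (-β) * D ^ β := by gcongr
      _ = 1 := h7
  have hXle : X ≤ (B + 1) * A2 := by
    have h8 : ∑ c ∈ T, ∑ d ∈ T, ((if c = d then B * a c else 0) + (θ * b c ^ 2 + θ * b d ^ 2))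
        = B * A2 + 2 * (T.card : ℝ≥0∞) * (θ * ∑ c ∈ T, b c ^ 2) := by
      simp only [Finset.sum_add_distrib]
      have e1 : ∑ c ∈ T, ∑ d ∈ T, (if c = d then B * a c else 0) = B * A2 := by
        rw [hA2, Finset.mul_sum]
        refine Finset.sum_congr rfl fun c hc => ?_
        rw [Finset.sum_ite_eq, if_pos hc]
      have e2 : ∑ c ∈ T, ∑ _d ∈ T, θ * b c ^ 2
          = (T.card : ℝ≥0∞) * (θ * ∑ c ∈ T, b c ^ 2) := by
        simp only [Finset.sum_const, nsmul_eq_mul]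
        rw [← Finset.mul_sum, ← Finset.mul_sum]
      have e3 : ∑ _c ∈ T, ∑ d ∈ T, θ * b d ^ 2
          = (T.card : ℝ≥0∞) * (θ * ∑ c ∈ T, b c ^ 2) := by
        simp only [Finset.sum_const, nsmul_eq_mul]
        rw [← Finset.mul_sum]
      rw [e1, e2, e3]
      ring
    calc X ≤ _ := h2
      _ ≤ ∑ c ∈ T, ∑ d ∈ T, ((if c = d then B * a c else 0) + (θ * b c ^ 2 + θ * b d ^ 2)) :=
          Finset.sum_le_sum fun c hc => Finset.sum_le_sum fun d hd => hcd c hc d hd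
      _ = B * A2 + 2 * (T.card : ℝ≥0∞) * (θ * ∑ c ∈ T, b c ^ 2) := h8
      _ ≤ B * A2 + 2 * (T.card : ℝ≥0∞) * (θ * ∑ c ∈ T, J * a c) := by
          gcongr with c _
          exact hbb c
      _ = B * A2 + (2 * (T.card : ℝ≥0∞) * (θ * J)) * A2 := by
          rw [← Finset.mul_sum, hA2]
          ring
      _ ≤ B * A2 + 1 * A2 := by gcongr
      _ = _ := by ring
  -- conclusion
  have hi2 : Integrable (fun x => ‖E x‖ ^ 2 * W x) := by
    refine hWi.bdd_mul (c := M ^ 2) (hE.norm.pow 2).aestronglyMeasurable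
      (Filter.Eventually.of_forall fun x => ?_)
    rw [Real.norm_of_nonneg (by positivity)]
    gcongr
    exact hM x
  have hA2eq : A2 = ‖∫ ξ, g ξ * conj (Fh (fun x => E x * ((W x : ℝ) : ℂ)) ξ) ∂μ‖ₑ := by
    rw [hA2W, enorm_sq_eq hW0 hi2, hEdef, pairing hgi]
    exact hHWi
  have hA2top : A2 ≠ ⊤ := by rw [hA2eq]; exact enorm_ne_top
  have hfin : A2 ^ 2 ≤ ((B + 1) * ∫⁻ ξ, ‖g ξ‖ₑ ^ 2 ∂μ) * A2 := by
    have h9 : A2 ≤ ∫⁻ ξ, ‖g ξ‖ₑ * ‖Fh (fun x => E x * ((W x : ℝ) : ℂ)) ξ‖ₑ * 1 ∂μ := by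
      rw [hA2eq]
      refine (enorm_integral_le_lintegral_enorm _).trans (le_of_eq ?_)
      congr 1; funext ξ
      rw [enorm_mul, mul_one]
      congr 1
      rw [← ofReal_norm, ← ofReal_norm, RCLike.norm_conj]
    calc A2 ^ 2 ≤ (∫⁻ ξ, ‖g ξ‖ₑ * ‖Fh (fun x => E x * ((W x : ℝ) : ℂ)) ξ‖ₑ * 1 ∂μ) ^ 2 :=
          pow_le_pow_left' h9 2
      _ ≤ (∫⁻ ξ, ‖g ξ‖ₑ ^ 2 * 1 ∂μ) *
          ∫⁻ ξ, ‖Fh (fun x => E x * ((W x : ℝ) : ℂ)) ξ‖ₑ ^ 2 * 1 ∂μ := by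
          refine cs_lint hgm.enorm ?_ measurable_const
          exact (continuous_Fh hHWi).measurable.enorm
      _ = (∫⁻ ξ, ‖g ξ‖ₑ ^ 2 ∂μ) * X := by simp only [mul_one, hX]
      _ ≤ (∫⁻ ξ, ‖g ξ‖ₑ ^ 2 ∂μ) * ((B + 1) * A2) := by gcongr
      _ = _ := by ring
  exact sq_le_mul_iff hA2top hfin

end Vale.Agent.P122.EPS
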