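import Vale.Agent.P122.EPS895.RW

/-!
# From restricted weak type bounds to strong bounds
-/

namespace Vale.Agent.P122.EPS

open MeasureTheory Set
open scoped ENNReal NNReal ComplexConjugate

lemma lint_rpow {m r : ℝ} (hm : 0 ≤ m) (hr : -1 < r) :
    ∫⁻ t in Ioc 0 m, ENNReal.ofReal (t ^ r) = ENNReal.ofReal (m ^ (r + 1) / (r + 1)) := by
  have hi : IntervalIntegrable (fun t : ℝ => t ^ r) volume 0 m :=
    intervalIntegral.intervalIntegrable_rpow' hr
  have hi2 : IntegrableOn (fun t : ℝ => t ^ r) (Ioc 0 m) volume :=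
    (intervalIntegrable_iff_integrableOn_Ioc_of_le hm).1 hi
  rw [← ofReal_integral_eq_lintegral_ofReal hi2]
  · rw [← intervalIntegral.integral_of_le hm, integral_rpow (Or.inl hr)]
    rw [Real.zero_rpow (by linarith), sub_zero]
  · refine (ae_restrict_iff' measurableSet_Ioc).2 (Filter.Eventually.of_forall fun t ht => ?_)
    exact Real.rpow_nonneg ht.1.le r

/-- Strong bound with a gain for functions bounded by an indicator. -/
lemma strong_restricted {μ : Measure V} [IsFiniteMeasure μ] (h : RWeak μ) {p : ℝ} (hp : 3 < p) :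
    ∃ γ : ℝ, 0 < γ ∧ ∃ C : ℝ≥0, ∀ (g : V → ℂ) (Ω : Set V), Measurable g → MeasurableSet Ω →
      (∀ ξ, ‖g ξ‖ ≤ 1) → (∀ ξ, ξ ∉ Ω → g ξ = 0) →
      ∫⁻ x, ‖Ext μ g x‖ₑ ^ p ≤ C * ENNReal.ofReal ((μ Ω).toReal ^ (1 + γ)) := by
  obtain ⟨q, hq⟩ : ∃ q : ℝ, q = (p + 3) / 2 := ⟨_, rfl⟩
  have hq3 : 3 < q := by rw [hq]; linarith
  have hqp : q < p := by rw [hq]; linarith
  obtain ⟨C, hC⟩ := h q hq3
  refine ⟨p - q, by linarith, Real.toNNReal p * C * Real.toNNReal (1 / (p - q)), ?_⟩
  intro g Ω hgm hΩ hg1 hgΩ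
  have hgi : Integrable g μ := Integrable.of_bound hgm.aestronglyMeasurable 1
    (Filter.Eventually.of_forall hg1)
  obtain ⟨m, hm⟩ : ∃ m : ℝ, m = (μ Ω).toReal := ⟨_, rfl⟩
  have hm0 : 0 ≤ m := by rw [hm]; exact ENNReal.toReal_nonneg
  have hmΩ : μ Ω = ENNReal.ofReal m := by rw [hm, ENNReal.ofReal_toReal (measure_ne_top _ _)]
  have hbd : ∀ x, ‖Ext μ g x‖ ≤ m := by
    intro x
    refine (norm_Ext_le _ _ _).trans ?_
    have h1 : ∫ ξ, ‖g ξ‖ ∂μ ≤ ∫ ξ, Ω.indicator (fun _ => (1 : ℝ)) ξ ∂μ := by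
      refine integral_mono hgi.norm ((integrable_const (1 : ℝ)).indicator hΩ) fun ξ => ?_
      by_cases hξ : ξ ∈ Ω
      · rw [indicator_of_mem hξ]; exact hg1 ξ
      · rw [indicator_of_notMem hξ, hgΩ ξ hξ, norm_zero]
    refine h1.trans (le_of_eq ?_)
    rw [integral_indicator hΩ, setIntegral_const, smul_eq_mul, mul_one, hm]
    rfl
  have hlc := lintegral_rpow_eq_lintegral_meas_lt_mul volume
    (f := fun x => ‖Ext μ g x‖) (Filter.Eventually.of_forall fun _ => norm_nonneg _)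
    (continuous_Ext hgi).norm.aemeasurable (by linarith : 0 < p)
  have e1 : ∫⁻ x, ‖Ext μ g x‖ₑ ^ p = ∫⁻ x, ENNReal.ofReal (‖Ext μ g x‖ ^ p) := by
    refine lintegral_congr fun x => ?_
    rw [← ofReal_norm, ENNReal.ofReal_rpow_of_nonneg (norm_nonneg _) (by linarith)]
  have e2 : ∫⁻ t in Ioi (0 : ℝ), volume {x | t < ‖Ext μ g x‖} * ENNReal.ofReal (t ^ (p - 1))
      ≤ ∫⁻ t in Ioc 0 m, (C * μ Ω) * ENNReal.ofReal (t ^ (p - q - 1)) := by
    rw [← lintegral_indicator measurableSet_Ioi, ← lintegral_indicator measurableSet_Ioc]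
    refine lintegral_mono fun t => ?_
    by_cases ht0 : t ∈ Ioi (0 : ℝ)
    · by_cases htm : t ≤ m
      · rw [indicator_of_mem ht0, indicator_of_mem (show t ∈ Ioc 0 m from ⟨ht0, htm⟩)]
        have ht0' : 0 < t := ht0
        calc volume {x | t < ‖Ext μ g x‖} * ENNReal.ofReal (t ^ (p - 1))
            ≤ (C * ENNReal.ofReal (t ^ (-q)) * μ Ω) * ENNReal.ofReal (t ^ (p - 1)) := by
              gcongr
              exact hC g Ω hgm hΩ hg1 hgΩ t ht0'
          _ = (C * μ Ω) * (ENNReal.ofReal (t ^ (-q)) * ENNReal.ofReal (t ^ (p - 1))) := by ring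
          _ = _ := by
              rw [← ENNReal.ofReal_mul (by positivity), ← Real.rpow_add ht0']
              congr 3
              ring
      · rw [indicator_of_mem ht0]
        have : {x | t < ‖Ext μ g x‖} = (∅ : Set V) := by
          rw [eq_empty_iff_forall_notMem]
          intro x hx
          have h1 : t < ‖Ext μ g x‖ := hx
          linarith [hbd x]
        rw [this]; simp
    · rw [indicator_of_notMem ht0]; exact zero_le
  rw [e1, hlc]
  calc ENNReal.ofReal p * ∫⁻ t in Ioi (0 : ℝ), volume {x | t < ‖Ext μ g x‖} *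
        ENNReal.ofReal (t ^ (p - 1))
      ≤ ENNReal.ofReal p * ((C * μ Ω) * ENNReal.ofReal (m ^ (p - q) / (p - q))) := by
        refine mul_le_mul_right (e2.trans (le_of_eq ?_)) _
        rw [lintegral_const_mul' _ _ (ENNReal.mul_ne_top ENNReal.coe_ne_top (measure_ne_top _ _)),
          lint_rpow hm0 (by linarith)]
        congr 3 <;> ring
    _ = _ := by
        rw [hmΩ, ENNReal.toReal_ofReal hm0, Real.rpow_add_of_nonneg hm0 zero_le_one
          (by linarith : 0 ≤ p - q), Real.rpow_one, div_eq_mul_one_div,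
          ENNReal.ofReal_mul hm0, ENNReal.ofReal_mul (by positivity)]
        push_cast
        simp only [ENNReal.ofReal]
        ring

/-- The scaled form. -/
lemma strong_scaled {μ : Measure V} [IsFiniteMeasure μ] (h : RWeak μ) {p : ℝ} (hp : 3 < p) :
    ∃ γ : ℝ, 0 < γ ∧ ∃ C : ℝ, 0 ≤ C ∧ ∀ (f : V → ℂ) (Ω : Set V) (a : ℝ), 0 < a →
      Measurable f → MeasurableSet Ω → (∀ ξ, ‖f ξ‖ ≤ a) → (∀ ξ, ξ ∉ Ω → f ξ = 0) →
      eLpNorm (Ext μ f) (ENNReal.ofReal p) volume
        ≤ ENNReal.ofReal (C * a * (μ Ω).toReal ^ ((1 + γ) / p)) := by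
  obtain ⟨γ, hγ, C, hC⟩ := strong_restricted h hp
  have hp0 : 0 < p := by linarith
  refine ⟨γ, hγ, (C : ℝ) ^ (1 / p), by positivity, ?_⟩
  intro f Ω a ha hfm hΩ hfa hfΩ
  set g : V → ℂ := fun ξ => ((a⁻¹ : ℝ) : ℂ) * f ξ with hg
  have hgm : Measurable g := hfm.const_mul _
  have hg1 : ∀ ξ, ‖g ξ‖ ≤ 1 := by
    intro ξ
    rw [hg]
    simp only [norm_mul, Complex.norm_real, norm_inv, Real.norm_eq_abs, abs_of_pos ha]
    rw [inv_mul_le_one₀ ha]
    exact hfa ξ
  have hEfg : Ext μ f = ((a : ℝ) : ℂ) • Ext μ g := by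
    funext x
    simp only [Pi.smul_apply, smul_eq_mul, Ext, hg]
    rw [← integral_const_mul]
    congr 1
    funext ξ
    have : (a : ℂ) ≠ 0 := by exact_mod_cast ha.ne'
    push_cast
    field_simp
  have h1 := hC g Ω hgm hΩ hg1 fun ξ hξ => by rw [hg]; simp [hfΩ ξ hξ]
  have hpE : ENNReal.ofReal p ≠ 0 := by
    rw [Ne, ENNReal.ofReal_eq_zero]; linarith
  rw [hEfg, eLpNorm_const_smul, eLpNorm_eq_lintegral_rpow_enorm_toReal hpE ENNReal.ofReal_ne_top,
    ENNReal.toReal_ofReal hp0.le]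
  have e3 : ‖((a : ℝ) : ℂ)‖ₑ = ENNReal.ofReal a := by
    rw [← ofReal_norm, Complex.norm_real, Real.norm_of_nonneg ha.le]
  rw [e3]
  have hm0 : 0 ≤ (μ Ω).toReal := ENNReal.toReal_nonneg
  calc ENNReal.ofReal a * (∫⁻ x, ‖Ext μ g x‖ₑ ^ p) ^ (1 / p)
      ≤ ENNReal.ofReal a * (C * ENNReal.ofReal ((μ Ω).toReal ^ (1 + γ))) ^ (1 / p) := by
        gcongr
    _ = _ := by
        rw [show (C : ℝ≥0∞) = ENNReal.ofReal (C : ℝ) by simp,
          ← ENNReal.ofReal_mul C.coe_nonneg, ENNReal.ofReal_rpow_of_nonneg (by positivity) (by positivity),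
          ← ENNReal.ofReal_mul ha.le]
        congr 1
        rw [Real.mul_rpow C.coe_nonneg (by positivity), ← Real.rpow_mul hm0, mul_one_div]
        ring

lemma Ext_add {μ : Measure V} {f g : V → ℂ} (hf : Integrable f μ) (hg : Integrable g μ) :
    Ext μ (fun ξ => f ξ + g ξ) = fun x => Ext μ f x + Ext μ g x := by
  funext x
  unfold Ext
  rw [← integral_add]
  · congr 1; funext ξ; ring
  · exact hf.mul_bdd (c := 1) (continuous_ch_right x).aestronglyMeasurable
      (Filter.Eventually.of_forall fun ξ => by simp)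
  · exact hg.mul_bdd (c := 1) (continuous_ch_right x).aestronglyMeasurable
      (Filter.Eventually.of_forall fun ξ => by simp)

lemma cheb {μ : Measure V} [IsFiniteMeasure μ] {p : ℝ} (hp : 3 < p) {f : V → ℂ}
    (hfm : Measurable f) {τ : ℝ} (hτ : 0 < τ)
    (hT : eLpNorm f (ENNReal.ofReal p) μ = ENNReal.ofReal τ) {s : ℝ} (hs : 0 < s) :
    (μ {ξ | τ * s < ‖f ξ‖}).toReal ≤ s ^ (-p) := by
  have hp0 : 0 < p := by linarith
  have hpE : ENNReal.ofReal p ≠ 0 := by
    rw [Ne, ENNReal.ofReal_eq_zero]; linarith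
  have h1 := meas_ge_le_mul_pow_eLpNorm_enorm μ hpE ENNReal.ofReal_ne_top
    hfm.aestronglyMeasurable (ε := ENNReal.ofReal (τ * s))
    (by rw [Ne, ENNReal.ofReal_eq_zero]; have : 0 < τ * s := by positivity
        linarith) (fun h => absurd h ENNReal.ofReal_ne_top)
  rw [hT, ENNReal.toReal_ofReal hp0.le, ← ENNReal.ofReal_inv_of_pos (by positivity),
    ENNReal.ofReal_rpow_of_nonneg (by positivity) hp0.le,
    ENNReal.ofReal_rpow_of_nonneg hτ.le hp0.le, ← ENNReal.ofReal_mul (by positivity)] at h1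
  refine ENNReal.toReal_le_of_le_ofReal (by positivity) ?_
  refine (measure_mono fun ξ hξ => ?_).trans (h1.trans (le_of_eq ?_))
  · simp only [mem_setOf_eq] at hξ ⊢
    rw [← ofReal_norm]
    exact ENNReal.ofReal_le_ofReal hξ.le
  · congr 1
    rw [← Real.mul_rpow (by positivity) hτ.le, Real.rpow_neg hs.le, ← Real.inv_rpow hs.le]
    congr 1
    field_simp

theorem strong_of_rweak {μ : Measure V} [IsFiniteMeasure μ] (h : RWeak μ) : Strong μ := by
  intro p hp
  have hp0 : 0 < p := by linarith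
  have hpE : ENNReal.ofReal p ≠ 0 := by
    rw [Ne, ENNReal.ofReal_eq_zero]; linarith
  have hp1 : 1 ≤ ENNReal.ofReal p := by
    rw [← ENNReal.ofReal_one]; exact ENNReal.ofReal_le_ofReal (by linarith)
  obtain ⟨γ, hγ, C, hC0, hC⟩ := strong_scaled h hp
  obtain ⟨M, hM⟩ : ∃ M : ℝ, M = (μ univ).toReal := ⟨_, rfl⟩
  have hM0 : 0 ≤ M := by rw [hM]; exact ENNReal.toReal_nonneg
  obtain ⟨ρ, hρ⟩ : ∃ ρ : ℝ, ρ = (2 : ℝ) ^ (-γ) := ⟨_, rfl⟩
  have hρ0 : 0 < ρ := by rw [hρ]; positivity
  have hρ1 : ρ < 1 := by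
    rw [hρ]; exact Real.rpow_lt_one_of_one_lt_of_neg one_lt_two (by linarith)
  obtain ⟨B, hB⟩ : ∃ B : ℝ, B = C * (M ^ ((1 + γ) / p) + 2 * (1 - ρ)⁻¹) + 1 := ⟨_, rfl⟩
  have hinv : 0 ≤ (1 - ρ)⁻¹ := inv_nonneg.2 (by linarith)
  have hB1 : 1 ≤ B := by
    have : 0 ≤ C * (M ^ ((1 + γ) / p) + 2 * (1 - ρ)⁻¹) := by positivity
    rw [hB]; linarith
  refine ⟨Real.toNNReal B, ?_⟩
  intro f hfm
  have hBne : ((Real.toNNReal B : ℝ≥0) : ℝ≥0∞) ≠ 0 := by
    have : 0 < Real.toNNReal B := Real.toNNReal_pos.2 (by linarith)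
    exact_mod_cast this.ne'
  rcases eq_or_ne (eLpNorm f (ENNReal.ofReal p) μ) ⊤ with hT | hT
  · rw [hT, ENNReal.mul_top hBne]; exact le_top
  rcases eq_or_ne (eLpNorm f (ENNReal.ofReal p) μ) 0 with hT0 | hT0
  · have hf0 : f =ᵐ[μ] 0 := (eLpNorm_eq_zero_iff hfm.aestronglyMeasurable hpE).1 hT0
    have hE0 : Ext μ f = 0 := by
      funext x
      unfold Ext
      rw [Pi.zero_apply]
      refine integral_eq_zero_of_ae ?_
      filter_upwards [hf0] with ξ hξ
      rw [hξ]; simp
    rw [hE0, eLpNorm_zero]; exact zero_le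
  obtain ⟨τ, hτ⟩ : ∃ τ : ℝ, τ = (eLpNorm f (ENNReal.ofReal p) μ).toReal := ⟨_, rfl⟩
  have hτE : eLpNorm f (ENNReal.ofReal p) μ = ENNReal.ofReal τ := by
    rw [hτ, ENNReal.ofReal_toReal hT]
  have hτ0 : 0 < τ := by rw [hτ]; exact ENNReal.toReal_pos hT0 hT
  have hfi : Integrable f μ :=
    MemLp.integrable hp1 ⟨hfm.aestronglyMeasurable, lt_top_iff_ne_top.2 hT⟩
  -- truncations
  set L : ℕ → Set V := fun n => {ξ | ‖f ξ‖ ≤ τ * 2 ^ n} with hL
  have hLm : ∀ n, MeasurableSet (L n) := fun n => measurableSet_le hfm.norm measurable_const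
  set F : ℕ → V → ℂ := fun n => Ext μ ((L n).indicator f) with hF
  set Ω : ℕ → Set V := fun n => {ξ | τ * 2 ^ n < ‖f ξ‖} ∩ L (n + 1) with hΩ
  have hΩm : ∀ n, MeasurableSet (Ω n) := fun n =>
    (measurableSet_lt measurable_const hfm.norm).inter (hLm (n + 1))
  have hbound : ∀ n : ℕ, eLpNorm (F n) (ENNReal.ofReal p) volume
      ≤ ENNReal.ofReal (C * τ * (M ^ ((1 + γ) / p) + 2 * ∑ k ∈ Finset.range n, ρ ^ k)) := by
    intro n
    induction n with
    | zero =>
      have h1 := hC ((L 0).indicator f) univ τ hτ0 (hfm.indicator (hLm 0)) MeasurableSet.univ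
        (fun ξ => by
          by_cases hξ : ξ ∈ L 0
          · rw [indicator_of_mem hξ]
            have h2 : ‖f ξ‖ ≤ τ * 2 ^ 0 := hξ
            simpa using h2
          · rw [indicator_of_notMem hξ, norm_zero]; exact hτ0.le)
        (fun ξ hξ => absurd (mem_univ ξ) hξ)
      rw [← hM] at h1
      simpa using h1
    | succ n ih =>
      have hsplit : (L (n + 1)).indicator f = fun ξ => (L n).indicator f ξ + (Ω n).indicator f ξ := by
        funext ξ
        by_cases h1 : ‖f ξ‖ ≤ τ * 2 ^ n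
        · have h2 : ‖f ξ‖ ≤ τ * 2 ^ (n + 1) := by
            refine h1.trans ?_
            rw [pow_succ]
            have : 0 ≤ τ * 2 ^ n := by positivity
            linarith
          rw [indicator_of_mem (show ξ ∈ L (n + 1) from h2),
            indicator_of_mem (show ξ ∈ L n from h1), indicator_of_notMem, add_zero]
          intro h3
          exact absurd h1 (not_le.2 h3.1)
        · rw [indicator_of_notMem (show ξ ∉ L n from h1), zero_add]
          by_cases h2 : ξ ∈ L (n + 1)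
          · rw [indicator_of_mem h2, indicator_of_mem (show ξ ∈ Ω n from ⟨not_le.1 h1, h2⟩)]
          · rw [indicator_of_notMem h2, indicator_of_notMem fun h3 => h2 h3.2]
      have hadd : F (n + 1) = fun x => F n x + Ext μ ((Ω n).indicator f) x := by
        simp only [hF]
        rw [hsplit, Ext_add (hfi.indicator (hLm n)) (hfi.indicator (hΩm n))]
      have hpiece : eLpNorm (Ext μ ((Ω n).indicator f)) (ENNReal.ofReal p) volume
          ≤ ENNReal.ofReal (C * τ * (2 * ρ ^ n)) := by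
        have h2n : (0 : ℝ) < 2 ^ n := by positivity
        refine (hC ((Ω n).indicator f) (Ω n) (τ * 2 ^ (n + 1)) (by positivity)
          (hfm.indicator (hΩm n)) (hΩm n) (fun ξ => ?_)
          (fun ξ hξ => indicator_of_notMem hξ _)).trans ?_
        · by_cases hξ : ξ ∈ Ω n
          · rw [indicator_of_mem hξ]; exact hξ.2
          · rw [indicator_of_notMem hξ, norm_zero]; positivity
        · apply ENNReal.ofReal_le_ofReal
          have hm : (μ (Ω n)).toReal ≤ ((2 : ℝ) ^ n) ^ (-p) := by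
            refine le_trans ?_ (cheb hp hfm hτ0 hτE h2n)
            exact ENNReal.toReal_mono (measure_ne_top _ _) (measure_mono inter_subset_left)
          have hm2 : (μ (Ω n)).toReal ^ ((1 + γ) / p) ≤ (2 : ℝ) ^ (-((n : ℝ) * (1 + γ))) := by
            refine (Real.rpow_le_rpow ENNReal.toReal_nonneg hm (by positivity)).trans (le_of_eq ?_)
            rw [← Real.rpow_natCast (2 : ℝ) n, ← Real.rpow_mul zero_le_two,
              ← Real.rpow_mul zero_le_two]
            congr 1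
            field_simp
          calc C * (τ * 2 ^ (n + 1)) * (μ (Ω n)).toReal ^ ((1 + γ) / p)
              ≤ C * (τ * 2 ^ (n + 1)) * (2 : ℝ) ^ (-((n : ℝ) * (1 + γ))) := by gcongr
            _ = C * τ * (2 * (2 ^ (n : ℝ) * (2 : ℝ) ^ (-((n : ℝ) * (1 + γ))))) := by
                rw [pow_succ, Real.rpow_natCast]; ring
            _ = C * τ * (2 * ρ ^ n) := by
                rw [← Real.rpow_add two_pos, hρ, ← Real.rpow_natCast ((2 : ℝ) ^ (-γ)) n,
                  ← Real.rpow_mul zero_le_two]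
                congr 3
                ring
      have hmF : AEStronglyMeasurable (F n) volume :=
        (continuous_Ext (hfi.indicator (hLm n))).aestronglyMeasurable
      have hmE : AEStronglyMeasurable (Ext μ ((Ω n).indicator f)) volume :=
        (continuous_Ext (hfi.indicator (hΩm n))).aestronglyMeasurable
      rw [hadd]
      have hs0 : 0 ≤ ∑ k ∈ Finset.range n, ρ ^ k := Finset.sum_nonneg fun k _ => by positivity
      have hMp : 0 ≤ M ^ ((1 + γ) / p) := by positivity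
      calc eLpNorm (fun x => F n x + Ext μ ((Ω n).indicator f) x) (ENNReal.ofReal p) volume
          ≤ eLpNorm (F n) (ENNReal.ofReal p) volume
            + eLpNorm (Ext μ ((Ω n).indicator f)) (ENNReal.ofReal p) volume :=
            eLpNorm_add_le hmF hmE hp1
        _ ≤ ENNReal.ofReal (C * τ * (M ^ ((1 + γ) / p) + 2 * ∑ k ∈ Finset.range n, ρ ^ k))
            + ENNReal.ofReal (C * τ * (2 * ρ ^ n)) := add_le_add ih hpiece
        _ = _ := by
            have hCτ : 0 ≤ C * τ := mul_nonneg hC0 hτ0.le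
            rw [← ENNReal.ofReal_add
              (mul_nonneg hCτ (add_nonneg hMp (mul_nonneg zero_le_two hs0)))
              (mul_nonneg hCτ (mul_nonneg zero_le_two (pow_nonneg hρ0.le n))),
              Finset.sum_range_succ]
            congr 1
            ring
  have hlim : ∀ x, Filter.Tendsto (fun n => F n x) Filter.atTop (nhds (Ext μ f x)) := by
    intro x
    simp only [hF]
    unfold Ext
    refine tendsto_integral_of_dominated_convergence (fun ξ => ‖f ξ‖) ?_ hfi.norm ?_ ?_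
    · intro n
      exact ((hfm.indicator (hLm n)).mul (continuous_ch_right x).measurable).aestronglyMeasurable
    · intro n
      refine Filter.Eventually.of_forall fun ξ => ?_
      rw [norm_mul, norm_ch, mul_one]
      exact norm_indicator_le_norm_self _ _
    · refine Filter.Eventually.of_forall fun ξ => ?_
      refine Filter.Tendsto.mul ?_ tendsto_const_nhds
      obtain ⟨N, hN⟩ := pow_unbounded_of_one_lt (‖f ξ‖ / τ) one_lt_two
      refine tendsto_const_nhds.congr' ?_
      filter_upwards [Filter.eventually_ge_atTop N] with n hn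
      rw [indicator_of_mem]
      show ‖f ξ‖ ≤ τ * 2 ^ n
      rw [div_lt_iff₀ hτ0] at hN
      have : (2 : ℝ) ^ N ≤ 2 ^ n := pow_le_pow_right₀ one_le_two hn
      nlinarith
  have hsum : ∀ n : ℕ, ∑ k ∈ Finset.range n, ρ ^ k ≤ (1 - ρ)⁻¹ := by
    intro n
    have := (summable_geometric_of_lt_one hρ0.le hρ1).sum_le_tsum (Finset.range n)
      (fun k _ => by positivity)
    rwa [tsum_geometric_of_lt_one hρ0.le hρ1] at this
  have hub : ∀ n, eLpNorm (F n) (ENNReal.ofReal p) volume ≤ ENNReal.ofReal (B * τ) := by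
    intro n
    refine (hbound n).trans (ENNReal.ofReal_le_ofReal ?_)
    have h1 : C * τ * (M ^ ((1 + γ) / p) + 2 * ∑ k ∈ Finset.range n, ρ ^ k)
        ≤ C * τ * (M ^ ((1 + γ) / p) + 2 * (1 - ρ)⁻¹) := by
      have := hsum n
      gcongr
    refine h1.trans ?_
    rw [hB]
    have : (C * (M ^ ((1 + γ) / p) + 2 * (1 - ρ)⁻¹) + 1) * τ
        = C * τ * (M ^ ((1 + γ) / p) + 2 * (1 - ρ)⁻¹) + τ := by ring
    rw [this]
    linarith
  refine (Lp.eLpNorm_lim_le_liminf_eLpNorm
    (fun n => (continuous_Ext (hfi.indicator (hLm n))).aestronglyMeasurable) (Ext μ f)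
    (Filter.Eventually.of_forall hlim)).trans ?_
  refine (Filter.liminf_le_of_frequently_le' (Filter.Frequently.of_forall hub)).trans ?_
  rw [hτE, ENNReal.ofReal_mul (by linarith)]
  rfl

/-- The epsilon removal. -/
theorem main {μ : Measure V} [IsFiniteMeasure μ] {A β C₀ : ℝ} (hA : Growth μ A) (hβ : 0 < β)
    (hdec : Decay μ β C₀) {K : ℕ} (hK : 6 ≤ K) (hloc : Loc μ K) : Strong μ :=
  strong_of_rweak (rweak hA hβ hdec hK hloc)

end Vale.Agent.P122.EPS
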