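import Vale.Agent.P122.EPS895.Defs

/-!
# Weighted local `L²` estimate and its dual
-/

namespace Vale.Agent.P122.EPS

open MeasureTheory
open scoped ENNReal NNReal ComplexConjugate

/-- Cauchy-Schwarz. -/
lemma cs_lint {ν : Measure V} {f g w : V → ℝ≥0∞} (hf : Measurable f) (hg : Measurable g)
    (hw : Measurable w) :
    (∫⁻ x, f x * g x * w x ∂ν) ^ 2 ≤ (∫⁻ x, f x ^ 2 * w x ∂ν) * ∫⁻ x, g x ^ 2 * w x ∂ν := by
  have hh : (2 : ℝ).HolderConjugate 2 := by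
    rw [Real.holderConjugate_iff]; norm_num
  have h := ENNReal.lintegral_mul_le_Lp_mul_Lq (ν.withDensity w) hh hf.aemeasurable
    hg.aemeasurable
  have e : ∀ k : V → ℝ≥0∞, Measurable k →
      ∫⁻ a, k a ∂(ν.withDensity w) = ∫⁻ a, k a * w a ∂ν := by
    intro k hk
    rw [lintegral_withDensity_eq_lintegral_mul _ hw hk]
    congr 1; funext a
    simp [mul_comm]
  rw [e _ (hf.mul hg), e _ (hf.pow_const 2), e _ (hg.pow_const 2)] at h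
  have h2 := pow_le_pow_left' h 2
  refine (le_trans (le_of_eq ?_) h2).trans (le_of_eq ?_)
  · simp
  · rw [mul_pow, ← ENNReal.rpow_natCast, ← ENNReal.rpow_natCast, ← ENNReal.rpow_mul,
      ← ENNReal.rpow_mul]
    norm_num

lemma sq_le_mul_iff {X Y : ℝ≥0∞} (hX : X ≠ ⊤) (h : X ^ 2 ≤ Y * X) : X ≤ Y := by
  rcases eq_or_ne X 0 with h0 | h0
  · rw [h0]; exact zero_le
  · rw [pow_two] at h
    exact (ENNReal.mul_le_mul_iff_left h0 hX).1 h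

/-- The universal constant of the weighted estimate. -/
noncomputable def cW : ℝ≥0∞ :=
  ∑' n : ℕ, ENNReal.ofReal (Real.exp Real.pi * (((n : ℝ) + 1) ^ 2)⁻¹) * (2 * cG)

lemma cW_ne_top : cW ≠ ⊤ := by
  unfold cW
  rw [ENNReal.tsum_mul_right]
  refine ENNReal.mul_ne_top ?_ (ENNReal.mul_ne_top (by norm_num) cG_ne_top)
  have h : Summable fun n : ℕ => Real.exp Real.pi * (((n : ℝ) + 1) ^ 2)⁻¹ := by
    have h2 := (summable_nat_add_iff 1).2 (Real.summable_nat_pow_inv.2 one_lt_two)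
    refine (h2.mul_left (Real.exp Real.pi)).congr fun n => ?_
    push_cast
    ring
  exact ENNReal.ofReal_tsum_of_nonneg (fun n => by positivity) h ▸ ENNReal.ofReal_ne_top

lemma wt_le_tsum {K : ℕ} (hK : 3 ≤ K) {R : ℝ} (hR : 0 < R) (x₀ x : V) :
    ENNReal.ofReal (wt K R (x - x₀)) ≤ ∑' n : ℕ,
      ENNReal.ofReal (Real.exp Real.pi * (((n : ℝ) + 1) ^ 3)⁻¹) *
        ENNReal.ofReal (gs (((n : ℝ) + 1) * R) x₀ x) := by
  set n := ⌊‖x - x₀‖ / R⌋₊ with hn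
  have h1 : (n : ℝ) ≤ ‖x - x₀‖ / R := Nat.floor_le (by positivity)
  have h2 : ‖x - x₀‖ / R < n + 1 := Nat.lt_floor_add_one _
  refine le_trans ?_ (ENNReal.le_tsum n)
  rw [← ENNReal.ofReal_mul (by positivity)]
  apply ENNReal.ofReal_le_ofReal
  have h3 : wt K R (x - x₀) ≤ (((n : ℝ) + 1) ^ 3)⁻¹ := by
    unfold wt
    have h4 : (1 : ℝ) ≤ 1 + ‖x - x₀‖ / R := by
      have : 0 ≤ ‖x - x₀‖ / R := by positivity
      linarith
    have h5 : ((n : ℝ) + 1) ^ 3 ≤ (1 + ‖x - x₀‖ / R) ^ K := by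
      calc ((n : ℝ) + 1) ^ 3 ≤ (1 + ‖x - x₀‖ / R) ^ 3 :=
            pow_le_pow_left₀ (by positivity) (by linarith) 3
        _ ≤ _ := pow_le_pow_right₀ h4 hK
    gcongr
  have h6 : 1 ≤ Real.exp Real.pi * gs (((n : ℝ) + 1) * R) x₀ x := by
    unfold gs
    rw [← Real.exp_add]
    apply Real.one_le_exp
    have h7 : ‖x - x₀‖ ≤ ((n : ℝ) + 1) * R := by
      rw [div_lt_iff₀ hR] at h2
      exact h2.le
    have h8 : ‖x - x₀‖ ^ 2 / (((n : ℝ) + 1) * R) ^ 2 ≤ 1 := by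
      rw [div_le_one (by positivity)]
      gcongr
    have : -(Real.pi / (((n : ℝ) + 1) * R) ^ 2) * ‖x - x₀‖ ^ 2
        = -(Real.pi * (‖x - x₀‖ ^ 2 / (((n : ℝ) + 1) * R) ^ 2)) := by ring
    rw [this]
    nlinarith [Real.pi_pos]
  calc wt K R (x - x₀) ≤ (((n : ℝ) + 1) ^ 3)⁻¹ * 1 := by rw [mul_one]; exact h3
    _ ≤ (((n : ℝ) + 1) ^ 3)⁻¹ * (Real.exp Real.pi * gs (((n : ℝ) + 1) * R) x₀ x) := by gcongr
    _ = _ := by ring

/-- Weighted local `L²` estimate. -/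
lemma local_wt {μ : Measure V} [IsFiniteMeasure μ] {A : ℝ} (hA : Growth μ A) {K : ℕ}
    (hK : 3 ≤ K) {R : ℝ} (hR : 0 < R) (x₀ : V) {g : V → ℂ} (hgm : Measurable g)
    (hg : Integrable g μ) :
    ∫⁻ x, ‖Ext μ g x‖ₑ ^ 2 * ENNReal.ofReal (wt K R (x - x₀))
      ≤ cW * ENNReal.ofReal (A * R) * ∫⁻ ξ, ‖g ξ‖ₑ ^ 2 ∂μ := by
  have hE : Measurable (Ext μ g) := (continuous_Ext hg).measurable
  calc ∫⁻ x, ‖Ext μ g x‖ₑ ^ 2 * ENNReal.ofReal (wt K R (x - x₀))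
      ≤ ∫⁻ x, ∑' n : ℕ, ENNReal.ofReal (Real.exp Real.pi * (((n : ℝ) + 1) ^ 3)⁻¹) *
          (‖Ext μ g x‖ₑ ^ 2 * ENNReal.ofReal (gs (((n : ℝ) + 1) * R) x₀ x)) := by
        refine lintegral_mono fun x => ?_
        refine (mul_le_mul_right (wt_le_tsum hK hR x₀ x) _).trans (le_of_eq ?_)
        rw [← ENNReal.tsum_mul_left]
        congr 1; funext n
        ring
    _ = ∑' n : ℕ, ENNReal.ofReal (Real.exp Real.pi * (((n : ℝ) + 1) ^ 3)⁻¹) *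
          ∫⁻ x, ‖Ext μ g x‖ₑ ^ 2 * ENNReal.ofReal (gs (((n : ℝ) + 1) * R) x₀ x) := by
        have hm : ∀ n : ℕ, Measurable fun x =>
            ‖Ext μ g x‖ₑ ^ 2 * ENNReal.ofReal (gs (((n : ℝ) + 1) * R) x₀ x) := by
          intro n
          unfold gs
          fun_prop
        rw [lintegral_tsum fun n => ((hm n).const_mul _).aemeasurable]
        congr 1; funext n
        rw [lintegral_const_mul _ (hm n)]
    _ ≤ ∑' n : ℕ, ENNReal.ofReal (Real.exp Real.pi * (((n : ℝ) + 1) ^ 3)⁻¹) *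
          (2 * (cG * ENNReal.ofReal (A * (((n : ℝ) + 1) * R))) * ∫⁻ ξ, ‖g ξ‖ₑ ^ 2 ∂μ) := by
        refine ENNReal.tsum_le_tsum fun n => ?_
        gcongr
        exact local_gs hA (by positivity) x₀ hgm hg
    _ = ∑' n : ℕ, ENNReal.ofReal (Real.exp Real.pi * (((n : ℝ) + 1) ^ 2)⁻¹) * (2 * cG) *
          (ENNReal.ofReal (A * R) * ∫⁻ ξ, ‖g ξ‖ₑ ^ 2 ∂μ) := by
        congr 1; funext n
        have h1 : ENNReal.ofReal (A * (((n : ℝ) + 1) * R))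
            = ENNReal.ofReal ((n : ℝ) + 1) * ENNReal.ofReal (A * R) := by
          rw [← ENNReal.ofReal_mul (by positivity)]
          congr 1; ring
        have h2 : ENNReal.ofReal (Real.exp Real.pi * (((n : ℝ) + 1) ^ 2)⁻¹)
            = ENNReal.ofReal (Real.exp Real.pi * (((n : ℝ) + 1) ^ 3)⁻¹) *
              ENNReal.ofReal ((n : ℝ) + 1) := by
          rw [← ENNReal.ofReal_mul (by positivity)]
          congr 1
          field_simp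
        rw [h1, h2]
        ring
    _ = _ := by
        rw [ENNReal.tsum_mul_right, cW]
        ring

lemma enorm_sq_eq {ν : Measure V} {G : V → ℂ} {w : V → ℝ} (hw0 : ∀ x, 0 ≤ w x)
    (hi : Integrable (fun x => ‖G x‖ ^ 2 * w x) ν) :
    ∫⁻ x, ‖G x‖ₑ ^ 2 * ENNReal.ofReal (w x) ∂ν
      = ‖∫ x, G x * conj (G x * ((w x : ℝ) : ℂ)) ∂ν‖ₑ := by
  have hL : ∫ x, G x * conj (G x * ((w x : ℝ) : ℂ)) ∂ν
      = ((∫ x, ‖G x‖ ^ 2 * w x ∂ν : ℝ) : ℂ) := by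
    rw [← integral_complex_ofReal]
    congr 1; funext x
    rw [map_mul, Complex.conj_ofReal, ← mul_assoc, Complex.mul_conj, Complex.normSq_eq_norm_sq]
    push_cast
    ring
  rw [hL]
  have h0 : 0 ≤ ∫ x, ‖G x‖ ^ 2 * w x ∂ν :=
    integral_nonneg fun x => mul_nonneg (by positivity) (hw0 x)
  rw [← ofReal_norm, Complex.norm_real, Real.norm_of_nonneg h0,
    ofReal_integral_eq_lintegral_ofReal hi
      (Filter.Eventually.of_forall fun x => mul_nonneg (by positivity) (hw0 x))]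
  congr 1; funext x
  rw [ENNReal.ofReal_mul (by positivity), ENNReal.ofReal_pow (norm_nonneg _), ofReal_norm]

/-- `∫ |Fh (E w)|² dμ ≤ ∫ |Ext (Fh (E w))| |E| w`, in a bilinear form. -/
lemma Fh_sq_le {μ : Measure V} [IsFiniteMeasure μ] {E : V → ℂ} (hE : Continuous E) {M : ℝ}
    (hM : ∀ x, ‖E x‖ ≤ M) {w : V → ℝ} (hw0 : ∀ x, 0 ≤ w x) (hwi : Integrable w) :
    ∫⁻ ξ, ‖Fh (fun x => E x * ((w x : ℝ) : ℂ)) ξ‖ₑ ^ 2 ∂μ
      ≤ ∫⁻ x, ‖Ext μ (Fh (fun x => E x * ((w x : ℝ) : ℂ))) x‖ₑ * ‖E x‖ₑ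
          * ENNReal.ofReal (w x) ∧
    ∫⁻ ξ, ‖Fh (fun x => E x * ((w x : ℝ) : ℂ)) ξ‖ₑ ^ 2 ∂μ ≠ ⊤ := by
  set h : V → ℂ := fun x => E x * ((w x : ℝ) : ℂ) with hh
  have hhi : Integrable h := hwi.ofReal.bdd_mul hE.aestronglyMeasurable
    (Filter.Eventually.of_forall hM)
  have hGc : Continuous (Fh h) := continuous_Fh hhi
  set M' : ℝ := ∫ x, ‖h x‖ with hM'
  have hGb : ∀ ξ, ‖Fh h ξ‖ ≤ M' := fun ξ => norm_Fh_le h ξ
  have hGi : Integrable (Fh h) μ :=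
    Integrable.of_bound hGc.aestronglyMeasurable M' (Filter.Eventually.of_forall hGb)
  have hG2 : Integrable (fun ξ => ‖Fh h ξ‖ ^ 2 * (1 : ℝ)) μ := by
    refine Integrable.of_bound (C := M' ^ 2) (by fun_prop) ?_
    refine Filter.Eventually.of_forall fun ξ => ?_
    rw [mul_one, Real.norm_of_nonneg (by positivity)]
    gcongr
    exact hGb ξ
  have hkey : ∫⁻ ξ, ‖Fh h ξ‖ₑ ^ 2 ∂μ = ‖∫ x, Ext μ (Fh h) x * conj (h x)‖ₑ := by
    have h1 := enorm_sq_eq (ν := μ) (G := Fh h) (w := fun _ => 1) (fun _ => zero_le_one) hG2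
    simp only [ENNReal.ofReal_one, mul_one, Complex.ofReal_one] at h1
    rw [h1, pairing hGi hhi]
  refine ⟨?_, ?_⟩
  · rw [hkey]
    refine (enorm_integral_le_lintegral_enorm _).trans (le_of_eq ?_)
    congr 1; funext x
    rw [enorm_mul, mul_assoc]
    congr 1
    rw [← ofReal_norm, RCLike.norm_conj, hh]
    simp only
    rw [norm_mul, ENNReal.ofReal_mul (norm_nonneg _), ofReal_norm, Complex.norm_real,
      Real.norm_of_nonneg (hw0 x)]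
  · rw [hkey]
    exact enorm_ne_top

/-- The dual of the local `L²` estimate. -/
lemma dual_l2 {μ : Measure V} [IsFiniteMeasure μ] {E : V → ℂ} (hE : Continuous E) {M : ℝ}
    (hM : ∀ x, ‖E x‖ ≤ M) {w : V → ℝ} (hw0 : ∀ x, 0 ≤ w x) (hwc : Continuous w)
    (hwi : Integrable w) {B : ℝ≥0∞}
    (hB : ∀ g : V → ℂ, Measurable g → Integrable g μ →
      ∫⁻ x, ‖Ext μ g x‖ₑ ^ 2 * ENNReal.ofReal (w x) ≤ B * ∫⁻ ξ, ‖g ξ‖ₑ ^ 2 ∂μ) :
    ∫⁻ ξ, ‖Fh (fun x => E x * ((w x : ℝ) : ℂ)) ξ‖ₑ ^ 2 ∂μ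
      ≤ B * ∫⁻ x, ‖E x‖ₑ ^ 2 * ENNReal.ofReal (w x) := by
  obtain ⟨h1, h2⟩ := Fh_sq_le (μ := μ) hE hM hw0 hwi
  set h : V → ℂ := fun x => E x * ((w x : ℝ) : ℂ) with hh
  have hhi : Integrable h := hwi.ofReal.bdd_mul hE.aestronglyMeasurable
    (Filter.Eventually.of_forall hM)
  have hGc : Continuous (Fh h) := continuous_Fh hhi
  have hGi : Integrable (Fh h) μ :=
    Integrable.of_bound hGc.aestronglyMeasurable (∫ x, ‖h x‖)
      (Filter.Eventually.of_forall fun ξ => norm_Fh_le h ξ)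
  apply sq_le_mul_iff h2
  calc (∫⁻ ξ, ‖Fh h ξ‖ₑ ^ 2 ∂μ) ^ 2
      ≤ (∫⁻ x, ‖Ext μ (Fh h) x‖ₑ * ‖E x‖ₑ * ENNReal.ofReal (w x)) ^ 2 :=
        pow_le_pow_left' h1 2
    _ ≤ (∫⁻ x, ‖Ext μ (Fh h) x‖ₑ ^ 2 * ENNReal.ofReal (w x)) *
        ∫⁻ x, ‖E x‖ₑ ^ 2 * ENNReal.ofReal (w x) := by
        refine cs_lint ?_ (by fun_prop) (by fun_prop)
        exact (continuous_Ext hGi).measurable.enorm
    _ ≤ (B * ∫⁻ ξ, ‖Fh h ξ‖ₑ ^ 2 ∂μ) * ∫⁻ x, ‖E x‖ₑ ^ 2 * ENNReal.ofReal (w x) := by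
        gcongr
        exact hB _ hGc.measurable hGi
    _ = _ := by ring

end Vale.Agent.P122.EPS
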